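import Vale.Agent.P262.Pot

/-!
# P262: atoms, halving and rounding at one node
-/

namespace P262

variable {d : ℕ} {ι : Type} [Fintype ι] [DecidableEq ι]

/-- energies -/
noncomputable def En (D : Data d ι) (W : Finset ι) (i : Fin d) : ℝ := ∑ a ∈ W, D.v a i ^ 2

theorem En_nonneg (D : Data d ι) (W : Finset ι) (i : Fin d) : 0 ≤ En D W i :=
  Finset.sum_nonneg fun _ _ => sq_nonneg _

theorem En_mono (D : Data d ι) {W W' : Finset ι} (h : W' ⊆ W) (i : Fin d) :
    En D W' i ≤ En D W i :=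
  Finset.sum_le_sum_of_subset_of_nonneg h fun _ _ _ => sq_nonneg _

theorem coord_le_one (D : Data d ι) (a : ι) (i : Fin d) : |D.v a i| ≤ 1 := by
  have h1 : D.v a i ^ 2 ≤ 1 :=
    (Finset.single_le_sum (f := fun i => D.v a i ^ 2) (fun i _ => sq_nonneg _)
      (Finset.mem_univ i)).trans (D.hv a)
  exact (sq_le_one_iff_abs_le_one _).1 h1

theorem f_pos (P : Par d) : 1 ≤ P.f := by
  have := P.hf
  omega

open Classical in
/-- the new marks -/
noncomputable def atoms (D : Data d ι) (j : ℕ) (W : Finset ι) : Finset ι :=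
  W.filter fun a => ∃ i, D.J i ≤ j ∧ En D W i < 32 * D.P.f * D.v a i ^ 2

theorem atoms_subset (D : Data d ι) (j : ℕ) (W : Finset ι) : atoms D j W ⊆ W :=
  Finset.filter_subset _ _

theorem card_atoms (D : Data d ι) (j : ℕ) (W : Finset ι) : (atoms D j W).card ≤ D.P.n := by
  classical
  have h1 : atoms D j W ⊆ Finset.univ.biUnion fun i : Fin d =>
      W.filter fun a => En D W i < 32 * D.P.f * D.v a i ^ 2 := by
    intro a ha
    rw [atoms, Finset.mem_filter] at ha
    obtain ⟨haW, i, _, hi⟩ := ha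
    rw [Finset.mem_biUnion]
    exact ⟨i, Finset.mem_univ _, Finset.mem_filter.2 ⟨haW, hi⟩⟩
  have h2 : ∀ i : Fin d, (W.filter fun a => En D W i < 32 * D.P.f * D.v a i ^ 2).card ≤
      32 * D.P.f := by
    intro i
    set S := W.filter fun a => En D W i < 32 * D.P.f * D.v a i ^ 2 with hS
    rcases S.eq_empty_or_nonempty with h0 | ⟨a, ha⟩
    · rw [h0]; simp
    · have haW := (Finset.mem_filter.1 ha).1
      have ha2 := (Finset.mem_filter.1 ha).2
      have h3 : 0 < En D W i := by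
        by_contra hcon
        have h4 : En D W i = 0 := le_antisymm (not_lt.1 hcon) (En_nonneg D W i)
        have h5 : D.v a i ^ 2 ≤ En D W i :=
          Finset.single_le_sum (f := fun a => D.v a i ^ 2) (fun a _ => sq_nonneg _) haW
        rw [h4] at h5 ha2
        have h6 : D.v a i ^ 2 = 0 := le_antisymm h5 (sq_nonneg _)
        rw [h6, mul_zero] at ha2
        exact lt_irrefl _ ha2
      have h4 : S.card * En D W i ≤ 32 * D.P.f * En D W i := by
        calc S.card * En D W i = ∑ _a ∈ S, En D W i := by rw [Finset.sum_const, nsmul_eq_mul]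
          _ ≤ ∑ a ∈ S, 32 * D.P.f * D.v a i ^ 2 :=
            Finset.sum_le_sum fun a ha => (Finset.mem_filter.1 ha).2.le
          _ = 32 * D.P.f * ∑ a ∈ S, D.v a i ^ 2 := by rw [Finset.mul_sum]
          _ ≤ 32 * D.P.f * En D W i := by
            refine mul_le_mul_of_nonneg_left ?_ (by positivity)
            exact En_mono D (Finset.filter_subset _ _) i
      have h5 : (S.card : ℝ) ≤ 32 * D.P.f := le_of_mul_le_mul_right h4 h3
      exact_mod_cast h5
  calc (atoms D j W).card ≤ _ := Finset.card_le_card h1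
    _ ≤ ∑ i : Fin d, (W.filter fun a => En D W i < 32 * D.P.f * D.v a i ^ 2).card :=
        Finset.card_biUnion_le
    _ ≤ ∑ _i : Fin d, 32 * D.P.f := Finset.sum_le_sum fun i _ => h2 i
    _ = 32 * D.P.f * d := by simp [mul_comm]
    _ ≤ D.P.n := D.P.hn

theorem not_atom (D : Data d ι) (j : ℕ) (W : Finset ι) {a : ι} (ha : a ∈ W \ atoms D j W)
    {i : Fin d} (hi : D.J i ≤ j) : 32 * D.P.f * D.v a i ^ 2 ≤ En D W i := by
  classical
  rw [Finset.mem_sdiff] at ha
  by_contra hcon
  push Not at hcon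
  exact ha.2 (Finset.mem_filter.2 ⟨ha.1, i, hi, hcon⟩)

/-- The linear programming step. -/
theorem lp (D : Data d ι) (W : Finset ι) (y0 : ι → ℝ) (hy0 : ∀ a, |y0 a| ≤ 1) :
    ∃ y1 : ι → ℝ, (∀ a, |y1 a| ≤ 1) ∧
      (∀ i, ∑ a ∈ W, y1 a * D.v a i = ∑ a ∈ W, y0 a * D.v a i) ∧
      (∀ i k, ∑ a ∈ W, y1 a * (D.v a i * D.v a k) = ∑ a ∈ W, y0 a * (D.v a i * D.v a k)) ∧
      (W.filter fun a => |y1 a| < 1).card ≤ D.P.f := by
  classical
  let eqv : Fin d ⊕ (Fin d × Fin d) ≃ Fin (d + d * d) :=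
    (Equiv.sumCongr (Equiv.refl _) finProdFinEquiv).trans finSumFinEquiv
  let w : Fin (d + d * d) → W → ℝ := fun j a =>
    Sum.elim (fun i => D.v a i) (fun ik => D.v a ik.1 * D.v a ik.2) (eqv.symm j)
  have hw1 : ∀ i a, w (eqv (Sum.inl i)) a = D.v a i := by
    intro i a
    simp [w]
  have hw2 : ∀ i k a, w (eqv (Sum.inr (i, k))) a = D.v a i * D.v a k := by
    intro i k a
    simp [w]
  obtain ⟨x', h1, _, h3, h4, _⟩ := moves (κ := W) (r := d + d * d) (m := 0) (lin w) 0 0
    (fun a => y0 a) (fun h _ _ => by simp) (fun _ => 0) (fun a => hy0 a)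
  have hsum : ∀ (g : W → ℝ) (u : ι → ℝ), (∀ a : W, g a = u a) →
      ∀ t : ι → ℝ, ∑ a : W, g a * t a = ∑ a ∈ W, u a * t a := by
    intro g u hgu t
    rw [← Finset.sum_coe_sort W (fun a => u a * t a)]
    exact Finset.sum_congr rfl fun a _ => by rw [hgu a]
  let y1 : ι → ℝ := fun a => if ha : a ∈ W then x' ⟨a, ha⟩ else 0
  have hy1 : ∀ a : W, x' a = y1 a := by
    intro a
    simp [y1]
  refine ⟨y1, ?_, ?_, ?_, ?_⟩
  · intro a
    by_cases ha : a ∈ W
    · simp only [y1, ha, dif_pos]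
      exact h1 _
    · simp [y1, ha]
  · intro i
    have e1 := congrFun h3 (eqv (Sum.inl i))
    rw [lin_apply, lin_apply] at e1
    simp_rw [hw1] at e1
    rw [← hsum (fun a => x' a) y1 hy1 (fun a => D.v a i),
      ← hsum (fun a => y0 a) y0 (fun _ => rfl) (fun a => D.v a i)]
    simp_rw [mul_comm (D.v _ i)] at e1
    exact e1
  · intro i k
    have e1 := congrFun h3 (eqv (Sum.inr (i, k)))
    rw [lin_apply, lin_apply] at e1
    simp_rw [hw2] at e1
    rw [← hsum (fun a => x' a) y1 hy1 (fun a => D.v a i * D.v a k),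
      ← hsum (fun a => y0 a) y0 (fun _ => rfl) (fun a => D.v a i * D.v a k)]
    simp_rw [mul_comm (D.v _ i * D.v _ k)] at e1
    exact e1
  · refine le_trans ?_ (h4.trans D.P.hf)
    have e1 : (Finset.univ.filter fun a : W => |x' a| < 1).card =
        (W.filter fun a => |y1 a| < 1).card := by
      refine Finset.card_bij (fun a _ => (a : ι)) ?_ ?_ ?_
      · intro a ha
        rw [Finset.mem_filter] at ha ⊢
        refine ⟨a.2, ?_⟩
        rw [← hy1]
        exact ha.2
      · intro a _ b _ hab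
        exact Subtype.ext hab
      · intro a ha
        rw [Finset.mem_filter] at ha
        refine ⟨⟨a, ha.1⟩, ?_, rfl⟩
        rw [Finset.mem_filter]
        refine ⟨Finset.mem_univ _, ?_⟩
        rw [hy1]
        exact ha.2
    rw [e1]

/-- The rounding step. -/
theorem rnd (D : Data d ι) (W : Finset ι) (y1 : ι → ℝ) (hy1 : ∀ a, |y1 a| ≤ 1) (M : List ι)
    (z y : ℕ) (c : Fin d → ℝ) :
    ∃ (s : ι → ℝ) (εb : ℕ → Bool) (e : Fin d → ℝ), (∀ a, s a = 1 ∨ s a = -1) ∧
      (∀ a ∈ W, |y1 a| = 1 → s a = y1 a) ∧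
      (∀ i, e i = (∑ a ∈ W, (s a - y1 a) * D.v a i) / 2 +
        ∑ n ∈ Finset.range ((M.length + 1) / 2),
          (if εb n then 1 else -1) * pairVec (fun a => D.v a i) M n) ∧
      (∑ i : Fin d, if z ≤ (i : ℕ) ∧ (i : ℕ) < y then (c i + e i) ^ 2 else 0) ≤
        (∑ i : Fin d, if z ≤ (i : ℕ) ∧ (i : ℕ) < y then c i ^ 2 + C0 else 0) ∧
      ∀ k : ℕ, (∑ i : Fin d, if z ≤ (i : ℕ) ∧ (i : ℕ) < k then e i ^ 2 - C0 else 0) ≤ 0 := by
  classical
  let np := (M.length + 1) / 2
  let u : W ⊕ Fin np → Fin d → ℝ := Sum.elim (fun a i => D.v a i / 2)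
    (fun n i => pairVec (fun a => D.v a i) M n)
  let x : W ⊕ Fin np → ℝ := Sum.elim (fun a => y1 a) (fun _ => 0)
  obtain ⟨ε, h1, h2, h3, h4⟩ := round u (by
    rintro (a | n)
    · show ∑ i, (D.v a i / 2) ^ 2 ≤ 1
      simp_rw [div_pow]
      rw [← Finset.sum_div]
      have := D.hv a
      linarith
    · exact pairVec_norm D.v D.hv M n) x (by
    rintro (a | n)
    · exact hy1 a
    · show |(0 : ℝ)| ≤ 1
      simp) z y c
  let s : ι → ℝ := fun a => if ha : a ∈ W then ε (Sum.inl ⟨a, ha⟩) else 1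
  let εb : ℕ → Bool := fun n => if hn : n < np then decide (ε (Sum.inr ⟨n, hn⟩) = 1) else true
  have hs : ∀ a : W, s a = ε (Sum.inl a) := fun a => by simp [s]
  have he : ∀ i, ∑ l, (ε l - x l) * u l i = (∑ a ∈ W, (s a - y1 a) * D.v a i) / 2 +
        ∑ n ∈ Finset.range ((M.length + 1) / 2),
          (if εb n then 1 else -1) * pairVec (fun a => D.v a i) M n := by
    intro i
    rw [Fintype.sum_sum_type]
    congr 1
    · rw [← Finset.sum_coe_sort W (fun a => (s a - y1 a) * D.v a i), Finset.sum_div]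
      refine Finset.sum_congr rfl fun a _ => ?_
      rw [hs a]
      show (ε (Sum.inl a) - y1 a) * (D.v a i / 2) = _
      ring
    · rw [← Fin.sum_univ_eq_sum_range (fun n => (if εb n then (1 : ℝ) else -1) *
        pairVec (fun a => D.v a i) M n)]
      refine Finset.sum_congr rfl fun n _ => ?_
      show (ε (Sum.inr n) - 0) * pairVec (fun a => D.v a i) M n = _
      rw [sub_zero]
      congr 1
      have hn : (n : ℕ) < np := n.2
      simp only [εb, hn, dif_pos, decide_eq_true_eq]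
      rcases h1 (Sum.inr n) with h | h
      · simp [h]
      · rw [h]
        norm_num
  refine ⟨s, εb, fun i => ∑ l, (ε l - x l) * u l i, ?_, ?_, he, h3, h4⟩
  · intro a
    by_cases ha : a ∈ W
    · simp only [s, ha, dif_pos]
      exact h1 _
    · simp [s, ha]
  · intro a ha h
    simp only [s, ha, dif_pos]
    exact h2 (Sum.inl ⟨a, ha⟩) h

end P262
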