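import Vale.Agent.P262.Core1

/-!
# P262: the splitting of one node
-/

namespace P262

variable {d : ℕ} {ι : Type} [Fintype ι] [DecidableEq ι]

/-- All facts about the splitting of one node. -/
structure Split (D : Data d ι) (j : ℕ) (M : List ι) (W : Finset ι) (p q : Fin d → ℝ)
    (N : Finset ι) (M₁ M₂ : List ι) (W₁ W₂ : Finset ι) (c e : Fin d → ℝ) : Prop where
  hN : N ⊆ W
  hNc : N.card ≤ D.P.n
  hM : (M₁ : Multiset ι) + (M₂ : Multiset ι) = (M : Multiset ι) + N.val
  hWd : Disjoint W₁ W₂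
  hWu : W₁ ∪ W₂ = W \ N
  len1 : 2 * M₁.length ≤ M.length + N.card + 1
  len2 : 2 * M₂.length ≤ M.length + N.card + 1
  get1 : ∀ (k : ℕ) (hk : k < M₁.length),
    (∃ (k' : ℕ) (hk' : k' < M.length), 2 * k ≤ k' ∧ M₁[k] = M[k']) ∨ M₁[k] ∈ N
  get2 : ∀ (k : ℕ) (hk : k < M₂.length),
    (∃ (k' : ℕ) (hk' : k' < M.length), 2 * k ≤ k' ∧ M₂[k] = M[k']) ∨ M₂[k] ∈ N
  mid : ∀ i, p i + msum D.v M₁ i + ∑ a ∈ W₁, D.v a i = c i + e i
  rich : ∀ i, ¬ D.J i ≤ j → c i = 0
  cross : ∀ i, D.J i ≤ j → |c i - (p i + q i) / 2| * (4 * D.P.R) ≤ 1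
  half : ∀ i, D.J i ≤ j → |∑ a ∈ W₁, D.v a i - (∑ a ∈ W \ N, D.v a i) / 2| ≤
    (2 * D.P.R / D.P.L + D.P.f) * Real.sqrt (En D W i)
  en1 : ∀ i, D.J i ≤ j → En D W₁ i ≤ 9 / 16 * En D W i
  en2 : ∀ i, D.J i ≤ j → En D W₂ i ≤ 9 / 16 * En D W i
  close1 : ∀ i k, |∑ a ∈ W₁, D.v a i * D.v a k - (∑ a ∈ W, D.v a i * D.v a k) / 2| ≤
    ((D.P.n : ℝ) / 2 + D.P.f) + 2 * D.P.R / D.P.L * Real.sqrt (En D W i)
  close2 : ∀ i k, |∑ a ∈ W₂, D.v a i * D.v a k - (∑ a ∈ W, D.v a i * D.v a k) / 2| ≤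
    ((D.P.n : ℝ) / 2 + D.P.f) + 2 * D.P.R / D.P.L * Real.sqrt (En D W i)
  nonatom : ∀ a ∈ W \ N, ∀ i, D.J i ≤ j → D.v a i ^ 2 ≤ En D W i
  rnd1 : ∀ z y : ℕ, (∀ i : Fin d, D.J i + D.P.K ≤ j ↔ (i : ℕ) < z) →
    (∀ i : Fin d, D.J i ≤ j ↔ (i : ℕ) < y) →
    (∑ i : Fin d, if z ≤ (i : ℕ) ∧ (i : ℕ) < y then (c i + e i) ^ 2 else 0) ≤
        (∑ i : Fin d, if z ≤ (i : ℕ) ∧ (i : ℕ) < y then c i ^ 2 + C0 else 0)
  rnd2 : ∀ z : ℕ, (∀ i : Fin d, D.J i + D.P.K ≤ j ↔ (i : ℕ) < z) → ∀ k : ℕ,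
    (∑ i : Fin d, if z ≤ (i : ℕ) ∧ (i : ℕ) < k then e i ^ 2 - C0 else 0) ≤ 0

omit [Fintype ι] [DecidableEq ι] in
theorem frac_sum_bound (W : Finset ι) (s y1 g : ι → ℝ) (hs : ∀ a, s a = 1 ∨ s a = -1)
    (hy : ∀ a, |y1 a| ≤ 1) (hfix : ∀ a ∈ W, |y1 a| = 1 → s a = y1 a) (B : ℝ) (hB : 0 ≤ B)
    (hg : ∀ a ∈ W, |g a| ≤ B) (f : ℕ) (hf : (W.filter fun a => |y1 a| < 1).card ≤ f) :
    |∑ a ∈ W, (s a - y1 a) * g a| ≤ 2 * f * B := by
  classical
  have h1 : ∑ a ∈ W, (s a - y1 a) * g a =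
      ∑ a ∈ W.filter (fun a => |y1 a| < 1), (s a - y1 a) * g a := by
    symm
    refine Finset.sum_subset (Finset.filter_subset _ _) fun a ha hna => ?_
    have h2 : |y1 a| = 1 := by
      rcases lt_or_eq_of_le (hy a) with h | h
      · exact absurd (Finset.mem_filter.2 ⟨ha, h⟩) hna
      · exact h
    rw [hfix a ha h2, sub_self, zero_mul]
  rw [h1]
  refine (Finset.abs_sum_le_sum_abs _ _).trans ?_
  have h2 : ∀ a ∈ W.filter (fun a => |y1 a| < 1), |(s a - y1 a) * g a| ≤ 2 * B := by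
    intro a ha
    rw [abs_mul]
    have h3 : |s a - y1 a| ≤ 2 := by
      have := abs_le.1 (hy a)
      rcases hs a with h | h <;> rw [h, abs_le] <;> constructor <;> linarith
    exact mul_le_mul h3 (hg a (Finset.mem_filter.1 ha).1) (abs_nonneg _) (by norm_num)
  refine (Finset.sum_le_card_nsmul _ _ _ h2).trans ?_
  rw [nsmul_eq_mul]
  have h4 : (((W.filter fun a => |y1 a| < 1).card : ℕ) : ℝ) ≤ f := by exact_mod_cast hf
  nlinarith

omit [Fintype ι] [DecidableEq ι] in
theorem sum_pos_part (W : Finset ι) (s g : ι → ℝ) (hs : ∀ a, s a = 1 ∨ s a = -1) :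
    ∑ a ∈ W.filter (fun a => s a = 1), g a = (∑ a ∈ W, g a + ∑ a ∈ W, s a * g a) / 2 := by
  rw [← Finset.sum_add_distrib, Finset.sum_div, Finset.sum_filter]
  refine Finset.sum_congr rfl fun a _ => ?_
  rcases hs a with h | h
  · rw [if_pos h, h]; ring
  · rw [if_neg (by rw [h]; norm_num), h]; ring

omit [Fintype ι] [DecidableEq ι] in
theorem sum_neg_part (W : Finset ι) (s g : ι → ℝ) (hs : ∀ a, s a = 1 ∨ s a = -1) :
    ∑ a ∈ W.filter (fun a => ¬ s a = 1), g a = (∑ a ∈ W, g a - ∑ a ∈ W, s a * g a) / 2 := by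
  rw [← Finset.sum_sub_distrib, Finset.sum_div, Finset.sum_filter]
  refine Finset.sum_congr rfl fun a _ => ?_
  rcases hs a with h | h
  · rw [if_neg (not_not.2 h), h]; ring
  · rw [if_pos (by rw [h]; norm_num), h]; ring

theorem par_facts (P : Par d) : 1 ≤ P.L ∧ 2 * P.R / P.L ^ 2 ≤ 1 / 64 ∧ 0 ≤ 2 * P.R / P.L ∧
    2 * P.R / P.L ≤ 1 / 32 := by
  have h1 := P.hR
  have h2 := P.hL
  have h3 : 64 ≤ P.L := by linarith
  have h4 : 0 < P.L := by linarith
  refine ⟨by linarith, ?_, by positivity, ?_⟩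
  · rw [div_le_iff₀ (by positivity)]
    nlinarith
  · rw [div_le_iff₀ h4]
    linarith

theorem exists_split (D : Data d ι) {j : ℕ} {M : List ι} {W : Finset ι} {p q : Fin d → ℝ}
    (hq : ∀ i, q i = p i + msum D.v M i + ∑ a ∈ W, D.v a i)
    (hclose : ∀ i k, |(∑ a ∈ W, D.v a i * D.v a k) - if i = k then D.lam i / 2 ^ j else 0| ≤
      (2 * D.P.n + 4 * D.P.f) + 8 * (2 * D.P.R / D.P.L) * Real.sqrt (D.lam i / 2 ^ j))
    (hp2 : ∑ i, p i ^ 2 ≤ D.P.R ^ 2) (hq2 : ∑ i, q i ^ 2 ≤ D.P.R ^ 2) :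
    ∃ (N : Finset ι) (M₁ M₂ : List ι) (W₁ W₂ : Finset ι) (c e : Fin d → ℝ),
      Split D j M W p q N M₁ M₂ W₁ W₂ c e := by
  classical
  obtain ⟨hL1, hRL2, hr0, hr1⟩ := par_facts D.P
  have hRpos := D.P.hR
  have hf1 := f_pos D.P
  set N := atoms D j W with hN
  set W' := W \ N with hW'
  have hNW : N ⊆ W := atoms_subset D j W
  have hNc : N.card ≤ D.P.n := card_atoms D j W
  have hsplit : ∀ g : ι → ℝ, ∑ a ∈ W, g a = ∑ a ∈ W', g a + ∑ a ∈ N, g a := fun g =>
    (Finset.sum_sdiff hNW).symm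
  have hlam0 : ∀ i, 0 ≤ D.lam i := by
    intro i
    have := D.hlam i i
    rw [if_pos rfl] at this
    rw [← this]
    exact Finset.sum_nonneg fun a _ => mul_self_nonneg _
  set g : Fin d → ℝ := fun i => Real.sqrt (D.lam i / 2 ^ j) with hg
  have hg2 : ∀ i, g i ^ 2 = D.lam i / 2 ^ j := fun i =>
    Real.sq_sqrt (div_nonneg (hlam0 i) (by positivity))
  set A : Fin d → Fin d → ℝ := fun i k => ∑ a ∈ W', D.v a i * D.v a k with hA
  have hprod1 : ∀ a i k, |D.v a i * D.v a k| ≤ 1 := fun a i k => by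
    rw [abs_mul]
    exact mul_le_one₀ (coord_le_one D a i) (abs_nonneg _) (coord_le_one D a k)
  have hNsum : ∀ i k, |∑ a ∈ N, D.v a i * D.v a k| ≤ D.P.n := by
    intro i k
    refine (Finset.abs_sum_le_sum_abs _ _).trans ?_
    refine (Finset.sum_le_card_nsmul _ _ 1 fun a _ => hprod1 a i k).trans ?_
    rw [nsmul_eq_mul, mul_one]
    exact_mod_cast hNc
  have hAclose : ∀ i k, |A i k - if i = k then g i ^ 2 else 0| ≤
      (2 * D.P.n + 4 * D.P.f + D.P.n) + 8 * (2 * D.P.R / D.P.L) * g i := by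
    intro i k
    have h1 := hclose i k
    have h2 := hNsum i k
    have h3 : A i k = (∑ a ∈ W, D.v a i * D.v a k) - ∑ a ∈ N, D.v a i * D.v a k := by
      rw [hsplit]; simp only [hA]; ring
    rw [h3, hg2]
    rw [abs_le] at h1 h2 ⊢
    constructor <;> linarith [h1.1, h1.2, h2.1, h2.2]
  set m : Fin d → ℝ := fun i => (p i + q i) / 2 with hm
  have hm2 : ∑ i, m i ^ 2 ≤ D.P.R ^ 2 := by
    have h1 : ∑ i, m i ^ 2 ≤ (∑ i, p i ^ 2 + ∑ i, q i ^ 2) / 2 := by
      rw [← Finset.sum_add_distrib, Finset.sum_div]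
      refine Finset.sum_le_sum fun i _ => ?_
      simp only [hm]
      nlinarith [sq_nonneg (p i - q i)]
    linarith
  obtain ⟨u, hu1, hu2, hu3, hu4, hu5⟩ := solve A (fun i => ¬ D.J i ≤ j) g D.P.L
    (2 * D.P.n + 4 * D.P.f + D.P.n) (2 * D.P.R / D.P.L) D.P.R hL1 (by positivity) hr0
    (by linarith) hAclose (fun i => Real.sqrt_nonneg _)
    (fun i hi => Real.le_sqrt_of_sq_le (D.hJ2 i j (not_le.1 hi)))
    (fun i hi => by
      rw [not_not] at hi
      have h1 := D.hJ1 i
      have h2 : D.lam i / 2 ^ j ≤ D.lam i / 2 ^ D.J i := by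
        apply div_le_div_of_nonneg_left (hlam0 i) (by positivity)
        exact pow_le_pow_right₀ (by norm_num) hi
      rw [hg]
      apply Real.sqrt_le_iff.2
      exact ⟨by linarith, by linarith⟩)
    D.P.h4 m hm2
  -- the functional
  set φ : ι → ℝ := fun a => ∑ i, u i * D.v a i with hφ
  have hφ1 : ∀ a, |φ a| ≤ 1 / 64 := by
    intro a
    have h1 := Finset.sum_mul_sq_le_sq_mul_sq Finset.univ u (D.v a)
    have h2 : (φ a) ^ 2 ≤ (2 * D.P.R / D.P.L ^ 2) ^ 2 := by
      refine h1.trans ?_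
      calc (∑ i, u i ^ 2) * ∑ i, D.v a i ^ 2 ≤ (2 * D.P.R / D.P.L ^ 2) ^ 2 * 1 :=
            mul_le_mul hu3 (D.hv a) (Finset.sum_nonneg fun _ _ => sq_nonneg _) (sq_nonneg _)
        _ = _ := mul_one _
    exact (abs_le_of_sq_le_sq h2 (by positivity)).trans hRL2
  have hφsq : ∑ a ∈ W', φ a ^ 2 ≤ (2 * D.P.R / D.P.L) ^ 2 := by
    refine le_trans (le_of_eq ?_) hu4
    have h1 : ∀ a, φ a ^ 2 = ∑ i, ∑ k, D.v a i * D.v a k * u i * u k := by
      intro a
      rw [sq, hφ, Finset.sum_mul_sum]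
      exact Finset.sum_congr rfl fun i _ => Finset.sum_congr rfl fun k _ => by ring
    simp_rw [h1]
    rw [Finset.sum_comm]
    refine Finset.sum_congr rfl fun i _ => ?_
    rw [Finset.sum_comm]
    refine Finset.sum_congr rfl fun k _ => ?_
    simp only [hA, Finset.sum_mul]
  set cr : Fin d → ℝ := fun i => ∑ k, A i k * u k with hcr
  have hcr' : ∀ i, cr i = ∑ a ∈ W', φ a * D.v a i := by
    intro i
    simp only [hcr, hA, hφ, Finset.sum_mul]
    rw [Finset.sum_comm]
    exact Finset.sum_congr rfl fun a _ => Finset.sum_congr rfl fun k _ => by ring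
  -- Cauchy-Schwarz
  have hCS : ∀ t : ι → ℝ, ∀ i, (∀ a ∈ W', t a ^ 2 ≤ D.v a i ^ 2) →
      |∑ a ∈ W', φ a * t a| ≤ 2 * D.P.R / D.P.L * Real.sqrt (En D W i) := by
    intro t i ht
    have h1 := Finset.sum_mul_sq_le_sq_mul_sq W' φ t
    have h2 : ∑ a ∈ W', t a ^ 2 ≤ En D W i :=
      (Finset.sum_le_sum ht).trans (En_mono D Finset.sdiff_subset i)
    have h3 : (∑ a ∈ W', φ a * t a) ^ 2 ≤ (2 * D.P.R / D.P.L * Real.sqrt (En D W i)) ^ 2 := by
      rw [mul_pow, Real.sq_sqrt (En_nonneg D W i)]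
      exact h1.trans (mul_le_mul hφsq h2 (Finset.sum_nonneg fun _ _ => sq_nonneg _)
        (sq_nonneg _))
    exact abs_le_of_sq_le_sq h3 (by positivity)
  -- linear programming
  obtain ⟨y1, hy1, hy1v, hy1vv, hy1f⟩ := lp D W' (fun a => 2 * φ a) (fun a => by
    have := hφ1 a
    rw [abs_mul, abs_two]
    linarith)
  obtain ⟨z₀, hz₀⟩ := exists_thr (fun i => D.J i + D.P.K)
    (fun a b hab => Nat.add_le_add_right (D.hJ hab) _) j
  obtain ⟨y₀, hy₀⟩ := exists_thr D.J D.hJ j
  -- rounding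
  obtain ⟨s, εb, e, hs, hfix, he, hr1', hr2'⟩ := rnd D W' y1 hy1 (M ++ N.toList) z₀ y₀
    (fun i => m i + cr i)
  have hSum : ∀ t : ι → ℝ, ∑ a ∈ W', s a * t a = ∑ a ∈ W', y1 a * t a +
      ∑ a ∈ W', (s a - y1 a) * t a := by
    intro t
    rw [← Finset.sum_add_distrib]
    exact Finset.sum_congr rfl fun a _ => by ring
  set W₁ := W'.filter (fun a => s a = 1) with hW₁
  set W₂ := W'.filter (fun a => ¬ s a = 1) with hW₂
  have hS1 : ∀ t : ι → ℝ, ∑ a ∈ W₁, t a = (∑ a ∈ W', t a + ∑ a ∈ W', s a * t a) / 2 :=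
    fun t => sum_pos_part W' s t hs
  have hS2 : ∀ t : ι → ℝ, ∑ a ∈ W₂, t a = (∑ a ∈ W', t a - ∑ a ∈ W', s a * t a) / 2 :=
    fun t => sum_neg_part W' s t hs
  have hatom : ∀ a ∈ W', ∀ i, D.J i ≤ j → 32 * D.P.f * D.v a i ^ 2 ≤ En D W i :=
    fun a ha i hi => not_atom D j W ha hi
  have hf1' : (1 : ℝ) ≤ D.P.f := by exact_mod_cast hf1
  have hB : ∀ i k, |∑ a ∈ W', φ a * (D.v a i * D.v a k)| ≤
      2 * D.P.R / D.P.L * Real.sqrt (En D W i) := by
    intro i k
    refine hCS _ i fun a _ => ?_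
    rw [mul_pow]
    have h1 : D.v a k ^ 2 ≤ 1 := (sq_le_one_iff_abs_le_one _).2 (coord_le_one D a k)
    nlinarith [sq_nonneg (D.v a i)]
  have hδ : ∀ i k, |∑ a ∈ W', (s a - y1 a) * (D.v a i * D.v a k)| ≤ 2 * D.P.f := by
    intro i k
    have := frac_sum_bound W' s y1 (fun a => D.v a i * D.v a k) hs hy1 hfix 1 zero_le_one
      (fun a _ => hprod1 a i k) D.P.f hy1f
    linarith
  have hsvv : ∀ i k, ∑ a ∈ W', s a * (D.v a i * D.v a k) =
      2 * ∑ a ∈ W', φ a * (D.v a i * D.v a k) +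
        ∑ a ∈ W', (s a - y1 a) * (D.v a i * D.v a k) := by
    intro i k
    rw [hSum, hy1vv, Finset.mul_sum]
    congr 1
    exact Finset.sum_congr rfl fun a _ => by ring
  have hsv : ∀ i, ∑ a ∈ W', s a * D.v a i = 2 * cr i + ∑ a ∈ W', (s a - y1 a) * D.v a i := by
    intro i
    rw [hSum, hy1v, hcr', Finset.mul_sum]
    congr 1
    exact Finset.sum_congr rfl fun a _ => by ring
  have hsqrt : ∀ a ∈ W', ∀ i, D.J i ≤ j → |D.v a i| ≤ Real.sqrt (En D W i) := by
    intro a ha i hi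
    apply Real.abs_le_sqrt
    have := hatom a ha i hi
    nlinarith [sq_nonneg (D.v a i)]
  have hen : ∀ i, D.J i ≤ j → |∑ a ∈ W', s a * (D.v a i * D.v a i)| ≤ 1 / 8 * En D W i := by
    intro i hi
    have h0 := En_nonneg D W i
    have h1 : |∑ a ∈ W', φ a * (D.v a i * D.v a i)| ≤ 1 / 64 * En D W i := by
      refine (Finset.abs_sum_le_sum_abs _ _).trans ?_
      calc ∑ a ∈ W', |φ a * (D.v a i * D.v a i)| ≤ ∑ a ∈ W', 1 / 64 * D.v a i ^ 2 := by
            refine Finset.sum_le_sum fun a _ => ?_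
            rw [abs_mul, abs_mul_self, ← sq]
            exact mul_le_mul_of_nonneg_right (hφ1 a) (sq_nonneg _)
        _ = 1 / 64 * En D W' i := by rw [← Finset.mul_sum]; rfl
        _ ≤ 1 / 64 * En D W i :=
            mul_le_mul_of_nonneg_left (En_mono D Finset.sdiff_subset i) (by norm_num)
    have h2 : |∑ a ∈ W', (s a - y1 a) * (D.v a i * D.v a i)| ≤
        2 * D.P.f * (En D W i / (32 * D.P.f)) := by
      refine frac_sum_bound W' s y1 (fun a => D.v a i * D.v a i) hs hy1 hfix _ (by positivity)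
        (fun a ha => ?_) D.P.f hy1f
      rw [abs_mul_self, ← sq, le_div_iff₀ (by positivity)]
      have := hatom a ha i hi
      linarith
    have h3 : 2 * D.P.f * (En D W i / (32 * D.P.f)) = En D W i / 16 := by
      have : (D.P.f : ℝ) ≠ 0 := by positivity
      field_simp
      ring
    rw [h3] at h2
    rw [hsvv]
    rw [abs_le] at h1 h2 ⊢
    constructor <;> linarith [h1.1, h1.2, h2.1, h2.2]
  refine ⟨N, (splitL (M ++ N.toList) εb).1, (splitL (M ++ N.toList) εb).2, W₁, W₂,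
    fun i => m i + cr i, e, ?_⟩
  have hlen : (M ++ N.toList).length = M.length + N.card := by
    rw [List.length_append, Finset.length_toList]
  have hget : ∀ (k' : ℕ) (hk' : k' < (M ++ N.toList).length),
      (∃ (hk'' : k' < M.length), (M ++ N.toList)[k'] = M[k']) ∨
      (M ++ N.toList)[k'] ∈ N := by
    intro k' hk'
    by_cases h : k' < M.length
    · left
      exact ⟨h, List.getElem_append_left h⟩
    · right
      rw [List.getElem_append_right (not_lt.1 h)]
      exact Finset.mem_toList.1 (List.getElem_mem _)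
  have hmsum : ∀ i, msum D.v ((M ++ N.toList : List ι) : Multiset ι) i =
      msum D.v M i + ∑ a ∈ N, D.v a i := by
    intro i
    unfold msum
    rw [← Multiset.coe_add, Multiset.map_add, Multiset.sum_add, Finset.coe_toList]
    rfl
  have hqN : ∀ i, q i = p i + msum D.v ((M ++ N.toList : List ι) : Multiset ι) i +
      ∑ a ∈ W', D.v a i := by
    intro i
    rw [hmsum, hq, hsplit]
    ring
  have hmsumlist : ∀ (l : List ι) i, msum D.v (l : Multiset ι) i =
      (l.map fun a => D.v a i).sum := by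
    intro l i
    unfold msum
    rw [Multiset.map_coe, Multiset.sum_coe]
  exact
    { hN := hNW
      hNc := hNc
      hM := by
        rw [splitL_perm, ← Multiset.coe_add, Finset.coe_toList]
      hWd := Finset.disjoint_filter_filter_not _ _ _
      hWu := Finset.filter_union_filter_not_eq _ _
      len1 := by
        have := (splitL_length (M ++ N.toList) εb).1
        rw [hlen] at this
        exact this
      len2 := by
        have := (splitL_length (M ++ N.toList) εb).2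
        rw [hlen] at this
        exact this
      get1 := by
        intro k hk
        obtain ⟨k', hk', h1, h2⟩ := (splitL_get (M ++ N.toList) εb).1 k hk
        rcases hget k' hk' with ⟨h3, h4⟩ | h3
        · left
          exact ⟨k', h3, h1, h2.trans h4⟩
        · right
          rw [h2]
          exact h3
      get2 := by
        intro k hk
        obtain ⟨k', hk', h1, h2⟩ := (splitL_get (M ++ N.toList) εb).2 k hk
        rcases hget k' hk' with ⟨h3, h4⟩ | h3
        · left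
          exact ⟨k', h3, h1, h2.trans h4⟩
        · right
          rw [h2]
          exact h3
      mid := by
        intro i
        have h1 := splitL_sum (fun a => D.v a i) (M ++ N.toList) εb
        rw [hmsumlist, h1, hS1, hsv, he]
        have h2 := hqN i
        rw [hmsumlist] at h2
        simp only [hm]
        rw [h2]
        ring
      rich := by
        intro i hi
        show m i + cr i = 0
        have := hu2 i hi
        simp only [hcr]
        rw [this]
        ring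
      cross := by
        intro i hi
        show |m i + cr i - (p i + q i) / 2| * (4 * D.P.R) ≤ 1
        have h1 : m i + cr i - (p i + q i) / 2 = cr i := by simp only [hm]; ring
        rw [h1]
        have h2 := hu5 i (not_not.2 hi)
        have h3 := D.P.h5
        have h4 : 8 * (2 * D.P.R / D.P.L) * D.P.L = 16 * D.P.R := by
          have : D.P.L ≠ 0 := by linarith
          field_simp
          ring
        rw [h4] at h2
        calc |cr i| * (4 * D.P.R) ≤ ((2 * D.P.n + 4 * D.P.f + D.P.n + 16 * D.P.R) * d *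
              (2 * D.P.R / D.P.L ^ 2)) * (4 * D.P.R) :=
              mul_le_mul_of_nonneg_right h2 (by linarith)
          _ ≤ 1 := h3
      half := by
        intro i hi
        rw [hS1, hsv]
        have h1 : |cr i| ≤ 2 * D.P.R / D.P.L * Real.sqrt (En D W i) := by
          rw [hcr']
          exact hCS _ i fun a _ => le_rfl
        have h2 := frac_sum_bound W' s y1 (fun a => D.v a i) hs hy1 hfix _ (Real.sqrt_nonneg _)
          (fun a ha => hsqrt a ha i hi) D.P.f hy1f
        have h3 : (∑ a ∈ W', D.v a i + (2 * cr i + ∑ a ∈ W', (s a - y1 a) * D.v a i)) / 2 -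
            (∑ a ∈ W \ N, D.v a i) / 2 = cr i + (∑ a ∈ W', (s a - y1 a) * D.v a i) / 2 := by
          ring
        rw [h3]
        rw [abs_le] at h1 h2 ⊢
        constructor <;> nlinarith [h1.1, h1.2, h2.1, h2.2]
      en1 := by
        intro i hi
        have h1 := abs_le.1 (hen i hi)
        have h2 := En_mono D (W := W) (W' := W') Finset.sdiff_subset i
        have h3 : En D W₁ i = (En D W' i + ∑ a ∈ W', s a * (D.v a i * D.v a i)) / 2 := by
          unfold En
          rw [hS1]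
          congr 2
          exact Finset.sum_congr rfl fun a _ => by rw [sq]
        rw [h3]
        linarith [h1.2]
      en2 := by
        intro i hi
        have h1 := abs_le.1 (hen i hi)
        have h2 := En_mono D (W := W) (W' := W') Finset.sdiff_subset i
        have h3 : En D W₂ i = (En D W' i - ∑ a ∈ W', s a * (D.v a i * D.v a i)) / 2 := by
          unfold En
          rw [hS2]
          congr 2
          exact Finset.sum_congr rfl fun a _ => by rw [sq]
        rw [h3]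
        linarith [h1.1]
      close1 := by
        intro i k
        rw [hS1, hsvv, hsplit (fun a => D.v a i * D.v a k)]
        have h1 := abs_le.1 (hB i k)
        have h2 := abs_le.1 (hδ i k)
        have h3 := abs_le.1 (hNsum i k)
        rw [abs_le]
        constructor <;> linarith [h1.1, h1.2, h2.1, h2.2, h3.1, h3.2]
      close2 := by
        intro i k
        rw [hS2, hsvv, hsplit (fun a => D.v a i * D.v a k)]
        have h1 := abs_le.1 (hB i k)
        have h2 := abs_le.1 (hδ i k)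
        have h3 := abs_le.1 (hNsum i k)
        rw [abs_le]
        constructor <;> linarith [h1.1, h1.2, h2.1, h2.2, h3.1, h3.2]
      nonatom := by
        intro a ha i hi
        have := hatom a ha i hi
        nlinarith [sq_nonneg (D.v a i)]
      rnd1 := by
        intro z y hz hy
        have h1 : ∀ i : Fin d, (z ≤ (i : ℕ) ∧ (i : ℕ) < y) ↔ (z₀ ≤ (i : ℕ) ∧ (i : ℕ) < y₀) := by
          intro i
          rw [← not_lt, ← not_lt, ← hz i, ← hz₀ i, ← hy i, ← hy₀ i]
        simp only [h1]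
        exact hr1'
      rnd2 := by
        intro z hz k
        have h1 : ∀ i : Fin d, (z ≤ (i : ℕ) ∧ (i : ℕ) < k) ↔ (z₀ ≤ (i : ℕ) ∧ (i : ℕ) < k) := by
          intro i
          rw [← not_lt, ← not_lt, ← hz i, ← hz₀ i]
        simp only [h1]
        exact hr2' k }

end P262
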