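import Mathlib

/-!
# P262: splitting a list of marks by consecutive pairs
-/

namespace P262

/-- From every consecutive pair, one entry goes to the first list, the other one to the second. -/
def splitL {ι : Type*} : List ι → (ℕ → Bool) → List ι × List ι
  | [], _ => ([], [])
  | [a], ε => if ε 0 then ([a], []) else ([], [a])
  | a :: b :: l, ε =>
    let s := splitL l (fun n => ε (n + 1))
    if ε 0 then (a :: s.1, b :: s.2) else (b :: s.1, a :: s.2)

/-- Half differences of the consecutive pairs. -/
noncomputable def pairVec {ι : Type*} (f : ι → ℝ) : List ι → ℕ → ℝ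
  | [], _ => 0
  | [a], 0 => f a / 2
  | [_], _ + 1 => 0
  | a :: b :: _, 0 => (f a - f b) / 2
  | _ :: _ :: l, n + 1 => pairVec f l n

theorem splitL_cons2 {ι : Type*} (a b : ι) (l : List ι) (ε : ℕ → Bool) :
    splitL (a :: b :: l) ε = if ε 0 then
      (a :: (splitL l fun n => ε (n + 1)).1, b :: (splitL l fun n => ε (n + 1)).2) else
      (b :: (splitL l fun n => ε (n + 1)).1, a :: (splitL l fun n => ε (n + 1)).2) := rfl

theorem splitL_perm {ι : Type*} (M : List ι) : ∀ (ε : ℕ → Bool),
    ((splitL M ε).1 : Multiset ι) + ((splitL M ε).2 : Multiset ι) = (M : Multiset ι) := by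
  induction M using List.twoStepInduction with
  | nil => intro ε; simp [splitL]
  | singleton a =>
    intro ε
    unfold splitL
    split_ifs <;> simp
  | cons_cons a b l ih _ =>
    intro ε
    rw [splitL_cons2]
    have ih' := ih (fun n => ε (n + 1))
    split_ifs with h
    · simp only [← Multiset.cons_coe, Multiset.cons_add, Multiset.add_cons]
      rw [ih', Multiset.cons_coe, Multiset.cons_coe, Multiset.cons_coe, Multiset.cons_coe]
      exact Multiset.coe_eq_coe.2 (List.Perm.swap _ _ _)
    · simp only [← Multiset.cons_coe, Multiset.cons_add, Multiset.add_cons]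
      rw [ih']

theorem splitL_length {ι : Type*} (M : List ι) : ∀ (ε : ℕ → Bool),
    2 * (splitL M ε).1.length ≤ M.length + 1 ∧ 2 * (splitL M ε).2.length ≤ M.length + 1 := by
  induction M using List.twoStepInduction with
  | nil => intro ε; simp [splitL]
  | singleton a =>
    intro ε
    unfold splitL
    split_ifs <;> simp
  | cons_cons a b l ih _ =>
    intro ε
    rw [splitL_cons2]
    have ih' := ih (fun n => ε (n + 1))
    split_ifs with h
    · simp only [List.length_cons]
      omega
    · simp only [List.length_cons]
      omega

theorem splitL_sum {ι : Type*} (f : ι → ℝ) (M : List ι) : ∀ (ε : ℕ → Bool),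
    ((splitL M ε).1.map f).sum = (M.map f).sum / 2 +
      ∑ n ∈ Finset.range ((M.length + 1) / 2), (if ε n then 1 else -1) * pairVec f M n := by
  induction M using List.twoStepInduction with
  | nil => intro ε; simp [splitL]
  | singleton a =>
    intro ε
    unfold splitL
    split_ifs with h
    · simp [pairVec, h]
    · simp [pairVec, h]
  | cons_cons a b l ih _ =>
    intro ε
    rw [splitL_cons2]
    have ih' := ih (fun n => ε (n + 1))
    have h1 : ((a :: b :: l).length + 1) / 2 = (l.length + 1) / 2 + 1 := by
      simp only [List.length_cons]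
      omega
    rw [h1, Finset.sum_range_succ']
    have h2 : ∀ n, pairVec f (a :: b :: l) (n + 1) = pairVec f l n := fun n => rfl
    have h3 : pairVec f (a :: b :: l) 0 = (f a - f b) / 2 := rfl
    simp_rw [h2]
    rw [h3]
    simp only [List.map_cons, List.sum_cons]
    split_ifs with h
    · simp only [List.map_cons, List.sum_cons]
      rw [ih']
      ring
    · simp only [List.map_cons, List.sum_cons]
      rw [ih']
      ring

theorem splitL_get {ι : Type*} (M : List ι) : ∀ (ε : ℕ → Bool),
    (∀ (k : ℕ) (hk : k < (splitL M ε).1.length), ∃ (k' : ℕ) (hk' : k' < M.length),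
      2 * k ≤ k' ∧ (splitL M ε).1[k] = M[k']) ∧
    (∀ (k : ℕ) (hk : k < (splitL M ε).2.length), ∃ (k' : ℕ) (hk' : k' < M.length),
      2 * k ≤ k' ∧ (splitL M ε).2[k] = M[k']) := by
  induction M using List.twoStepInduction with
  | nil => intro ε; simp [splitL]
  | singleton a =>
    intro ε
    have : splitL [a] ε = if ε 0 then ([a], []) else ([], [a]) := rfl
    rw [this]
    split_ifs with h
    · refine ⟨fun k hk => ⟨0, by simp, ?_, ?_⟩, fun k hk => ?_⟩
      · simp at hk; omega
      · simp
      · simp at hk
    · refine ⟨fun k hk => ?_, fun k hk => ⟨0, by simp, ?_, ?_⟩⟩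
      · simp at hk
      · simp at hk; omega
      · simp
  | cons_cons a b l ih _ =>
    intro ε
    rw [splitL_cons2]
    obtain ⟨ih1, ih2⟩ := ih (fun n => ε (n + 1))
    split_ifs with h
    · refine ⟨fun k hk => ?_, fun k hk => ?_⟩
      · cases k with
        | zero => exact ⟨0, by simp, by omega, rfl⟩
        | succ k =>
          simp only [List.length_cons, Nat.add_lt_add_iff_right] at hk
          obtain ⟨k', hk', h1, h2⟩ := ih1 k hk
          exact ⟨k' + 2, by simp only [List.length_cons]; omega, by omega, by simpa using h2⟩
      · cases k with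
        | zero => exact ⟨1, by simp, by omega, rfl⟩
        | succ k =>
          simp only [List.length_cons, Nat.add_lt_add_iff_right] at hk
          obtain ⟨k', hk', h1, h2⟩ := ih2 k hk
          exact ⟨k' + 2, by simp only [List.length_cons]; omega, by omega, by simpa using h2⟩
    · refine ⟨fun k hk => ?_, fun k hk => ?_⟩
      · cases k with
        | zero => exact ⟨1, by simp, by omega, rfl⟩
        | succ k =>
          simp only [List.length_cons, Nat.add_lt_add_iff_right] at hk
          obtain ⟨k', hk', h1, h2⟩ := ih1 k hk
          exact ⟨k' + 2, by simp only [List.length_cons]; omega, by omega, by simpa using h2⟩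
      · cases k with
        | zero => exact ⟨0, by simp, by omega, rfl⟩
        | succ k =>
          simp only [List.length_cons, Nat.add_lt_add_iff_right] at hk
          obtain ⟨k', hk', h1, h2⟩ := ih2 k hk
          exact ⟨k' + 2, by simp only [List.length_cons]; omega, by omega, by simpa using h2⟩

theorem pairVec_norm {ι : Type*} {d : ℕ} (v : ι → Fin d → ℝ) (hv : ∀ a, ∑ i, v a i ^ 2 ≤ 1)
    (M : List ι) : ∀ (n : ℕ), ∑ i, pairVec (fun a => v a i) M n ^ 2 ≤ 1 := by
  induction M using List.twoStepInduction with
  | nil => intro n; simp [pairVec]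
  | singleton a =>
    intro n
    cases n with
    | zero =>
      have : ∀ i, pairVec (fun a => v a i) [a] 0 = v a i / 2 := fun i => rfl
      simp_rw [this, div_pow]
      rw [← Finset.sum_div]
      have := hv a
      linarith
    | succ n =>
      have : ∀ i, pairVec (fun a => v a i) [a] (n + 1) = 0 := fun i => rfl
      simp [this]
  | cons_cons a b l ih _ =>
    intro n
    cases n with
    | zero =>
      have : ∀ i, pairVec (fun a => v a i) (a :: b :: l) 0 = (v a i - v b i) / 2 := fun i => rfl
      simp_rw [this]
      have h1 : ∑ i, ((v a i - v b i) / 2) ^ 2 ≤ (∑ i, v a i ^ 2) / 2 + (∑ i, v b i ^ 2) / 2 := by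
        rw [Finset.sum_div, Finset.sum_div, ← Finset.sum_add_distrib]
        refine Finset.sum_le_sum fun i _ => ?_
        nlinarith [sq_nonneg (v a i + v b i)]
      have := hv a
      have := hv b
      linarith
    | succ n =>
      have : ∀ i, pairVec (fun a => v a i) (a :: b :: l) (n + 1) =
        pairVec (fun a => v a i) l n := fun i => rfl
      simp_rw [this]
      exact ih n

end P262
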