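import Mathlib

/-!
# P262: solving the linear system for the reset vector
-/

namespace P262

/-- lower bound of the quadratic form on vectors supported on rich coordinates -/
theorem quad_lower {d : ℕ} (A : Fin d → Fin d → ℝ)
    (rich : Fin d → Prop) [DecidablePred rich] (g : Fin d → ℝ) (L n r : ℝ)
    (hL : 1 ≤ L) (hn : 0 ≤ n) (hr : 0 ≤ r)
    (hA : ∀ i k, |A i k - if i = k then g i ^ 2 else 0| ≤ n + 8 * r * g i)
    (hg : ∀ i, 0 ≤ g i) (hrich : ∀ i, rich i → L ≤ g i)
    (hcond : (n / L ^ 2 + 8 * r / L) * d ≤ 1 / 2)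
    (u : Fin d → ℝ) (hu : ∀ i, ¬ rich i → u i = 0) :
    L ^ 2 / 2 * ∑ i, u i ^ 2 ≤ ∑ i, ∑ k, A i k * u i * u k := by
  have h0 : ∀ i k, g i * |u i| * (g k * |u k|) * (n / L ^ 2 + 8 * r / L) ≥
      |A i k - if i = k then g i ^ 2 else 0| * (|u i| * |u k|) := by
    intro i k
    by_cases hi : rich i
    · by_cases hk : rich k
      · have a1 := hrich i hi
        have a2 := hrich k hk
        have a3 : n + 8 * r * g i ≤ g i * g k * (n / L ^ 2 + 8 * r / L) := by
          have b1 : n ≤ g i * g k * (n / L ^ 2) := by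
            have : g i * g k * (n / L ^ 2) = n * ((g i * g k) / L ^ 2) := by ring
            rw [this]
            have c1 : 1 ≤ (g i * g k) / L ^ 2 := by
              rw [le_div_iff₀ (by positivity)]
              nlinarith
            nlinarith
          have b2 : 8 * r * g i ≤ g i * g k * (8 * r / L) := by
            have : g i * g k * (8 * r / L) = 8 * r * g i * (g k / L) := by ring
            rw [this]
            have c1 : 1 ≤ g k / L := by
              rw [le_div_iff₀ (by positivity)]
              linarith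
            have c2 : 0 ≤ 8 * r * g i := by have := hg i; positivity
            nlinarith
          rw [mul_add]
          linarith
        have a4 := hA i k
        have a5 : 0 ≤ |u i| * |u k| := by positivity
        calc |A i k - if i = k then g i ^ 2 else 0| * (|u i| * |u k|)
            ≤ (g i * g k * (n / L ^ 2 + 8 * r / L)) * (|u i| * |u k|) :=
              mul_le_mul_of_nonneg_right (a4.trans a3) a5
          _ = _ := by ring
      · rw [hu k hk]; simp
    · rw [hu i hi]; simp
  have h1 : ∑ i, ∑ k, A i k * u i * u k = ∑ i, g i ^ 2 * u i ^ 2 +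
      ∑ i, ∑ k, (A i k - if i = k then g i ^ 2 else 0) * (u i * u k) := by
    rw [← Finset.sum_add_distrib]
    refine Finset.sum_congr rfl fun i _ => ?_
    have : ∑ k, (A i k - if i = k then g i ^ 2 else 0) * (u i * u k) =
        ∑ k, A i k * u i * u k - g i ^ 2 * u i ^ 2 := by
      simp_rw [sub_mul]
      rw [Finset.sum_sub_distrib]
      congr 1
      · exact Finset.sum_congr rfl fun k _ => by ring
      · simp only [ite_mul, zero_mul, Finset.sum_ite_eq, Finset.mem_univ, if_true]
        ring
    rw [this]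
    ring
  have h2 : |∑ i, ∑ k, (A i k - if i = k then g i ^ 2 else 0) * (u i * u k)| ≤
      (n / L ^ 2 + 8 * r / L) * (∑ i, g i * |u i|) ^ 2 := by
    refine (Finset.abs_sum_le_sum_abs _ _).trans ?_
    have e1 : (n / L ^ 2 + 8 * r / L) * (∑ i, g i * |u i|) ^ 2 =
        ∑ i, ∑ k, g i * |u i| * (g k * |u k|) * (n / L ^ 2 + 8 * r / L) := by
      rw [sq (∑ i, g i * |u i|), Finset.sum_mul_sum, Finset.mul_sum]
      refine Finset.sum_congr rfl fun i _ => ?_
      rw [Finset.mul_sum]
      exact Finset.sum_congr rfl fun k _ => by ring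
    rw [e1]
    refine Finset.sum_le_sum fun i _ => ?_
    refine (Finset.abs_sum_le_sum_abs _ _).trans ?_
    refine Finset.sum_le_sum fun k _ => ?_
    rw [abs_mul, abs_mul]
    exact h0 i k
  have h3 : (∑ i, g i * |u i|) ^ 2 ≤ d * ∑ i, g i ^ 2 * u i ^ 2 := by
    have := sq_sum_le_card_mul_sum_sq (s := (Finset.univ : Finset (Fin d)))
      (f := fun i => g i * |u i|)
    simp only [Finset.card_univ, Fintype.card_fin] at this
    refine this.trans (le_of_eq ?_)
    congr 1
    refine Finset.sum_congr rfl fun i _ => ?_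
    rw [mul_pow, sq_abs]
  have h4 : L ^ 2 * ∑ i, u i ^ 2 ≤ ∑ i, g i ^ 2 * u i ^ 2 := by
    rw [Finset.mul_sum]
    refine Finset.sum_le_sum fun i _ => ?_
    by_cases hi : rich i
    · have := hrich i hi
      gcongr
    · rw [hu i hi]; simp
  have h5 : 0 ≤ ∑ i, g i ^ 2 * u i ^ 2 := Finset.sum_nonneg fun i _ => by positivity
  have h6 : 0 ≤ n / L ^ 2 + 8 * r / L := by positivity
  have h7 : (n / L ^ 2 + 8 * r / L) * (∑ i, g i * |u i|) ^ 2 ≤
      1 / 2 * ∑ i, g i ^ 2 * u i ^ 2 := by
    calc (n / L ^ 2 + 8 * r / L) * (∑ i, g i * |u i|) ^ 2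
        ≤ (n / L ^ 2 + 8 * r / L) * (d * ∑ i, g i ^ 2 * u i ^ 2) :=
          mul_le_mul_of_nonneg_left h3 h6
      _ = ((n / L ^ 2 + 8 * r / L) * d) * ∑ i, g i ^ 2 * u i ^ 2 := by ring
      _ ≤ _ := mul_le_mul_of_nonneg_right hcond h5
  have h8 := abs_le.1 (h2.trans h7)
  rw [h1]
  linarith [h8.1]

theorem solve {d : ℕ} (A : Fin d → Fin d → ℝ)
    (rich : Fin d → Prop) [DecidablePred rich] (g : Fin d → ℝ) (L n r R : ℝ)
    (hL : 1 ≤ L) (hn : 0 ≤ n) (hr : 0 ≤ r) (hR : 0 ≤ R)
    (hA : ∀ i k, |A i k - if i = k then g i ^ 2 else 0| ≤ n + 8 * r * g i)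
    (hg : ∀ i, 0 ≤ g i) (hrich : ∀ i, rich i → L ≤ g i) (hpoor : ∀ i, ¬ rich i → g i ≤ L)
    (hcond : (n / L ^ 2 + 8 * r / L) * d ≤ 1 / 2)
    (m : Fin d → ℝ) (hm : ∑ i, m i ^ 2 ≤ R ^ 2) :
    ∃ u : Fin d → ℝ, (∀ i, ¬ rich i → u i = 0) ∧ (∀ i, rich i → ∑ k, A i k * u k = - m i) ∧
      ∑ i, u i ^ 2 ≤ (2 * R / L ^ 2) ^ 2 ∧
      ∑ i, ∑ k, A i k * u i * u k ≤ (2 * R / L) ^ 2 ∧
      (∀ i, ¬ rich i → |∑ k, A i k * u k| ≤ (n + 8 * r * L) * d * (2 * R / L ^ 2)) := by
  -- the linear operator: on rich coordinates `A (1_rich u)`, on the other ones the identity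
  let T : (Fin d → ℝ) →ₗ[ℝ] (Fin d → ℝ) :=
    { toFun := fun u i => if rich i then ∑ k, A i k * (if rich k then u k else 0) else u i
      map_add' := by
        intro a b
        funext i
        by_cases hi : rich i
        · simp only [hi, if_true, Pi.add_apply, ← Finset.sum_add_distrib]
          refine Finset.sum_congr rfl fun k _ => ?_
          by_cases hk : rich k <;> simp [hk, mul_add]
        · simp [hi]
      map_smul' := by
        intro t a
        funext i
        by_cases hi : rich i
        · simp only [hi, if_true, Pi.smul_apply, smul_eq_mul, RingHom.id_apply, Finset.mul_sum]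
          refine Finset.sum_congr rfl fun k _ => ?_
          by_cases hk : rich k
          · simp only [hk, if_true]; ring
          · simp [hk]
        · simp [hi] }
  have hT : ∀ u i, T u i = if rich i then ∑ k, A i k * (if rich k then u k else 0) else u i :=
    fun _ _ => rfl
  have hinj : Function.Injective T := by
    rw [← LinearMap.ker_eq_bot, LinearMap.ker_eq_bot']
    intro u hu
    have h1 : ∀ i, ¬ rich i → u i = 0 := by
      intro i hi
      have := congrFun hu i
      rw [hT, if_neg hi] at this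
      exact this
    have h2 : ∀ k, (if rich k then u k else 0) = u k := by
      intro k
      by_cases hk : rich k
      · simp [hk]
      · simp [hk, h1 k hk]
    have h3 : ∀ i, rich i → ∑ k, A i k * u k = 0 := by
      intro i hi
      have := congrFun hu i
      rw [hT, if_pos hi] at this
      simp_rw [h2] at this
      exact this
    have h4 := quad_lower A rich g L n r hL hn hr hA hg hrich hcond u h1
    have h5 : ∑ i, ∑ k, A i k * u i * u k = 0 := by
      refine Finset.sum_eq_zero fun i _ => ?_
      have : ∑ k, A i k * u i * u k = u i * ∑ k, A i k * u k := by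
        rw [Finset.mul_sum]
        exact Finset.sum_congr rfl fun k _ => by ring
      rw [this]
      by_cases hi : rich i
      · rw [h3 i hi, mul_zero]
      · rw [h1 i hi, zero_mul]
    rw [h5] at h4
    have h6 : ∑ i, u i ^ 2 ≤ 0 := by
      by_contra hcon
      push Not at hcon
      have : 0 < L ^ 2 / 2 * ∑ i, u i ^ 2 := by positivity
      linarith
    funext i
    have h7 := (Finset.sum_eq_zero_iff_of_nonneg (fun i _ => sq_nonneg (u i))).1
      (le_antisymm h6 (Finset.sum_nonneg fun i _ => sq_nonneg _)) i (Finset.mem_univ i)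
    exact pow_eq_zero_iff (two_ne_zero) |>.1 h7
  have hsurj : Function.Surjective T := LinearMap.injective_iff_surjective.1 hinj
  obtain ⟨u, hu⟩ := hsurj (fun i => if rich i then - m i else 0)
  have h1 : ∀ i, ¬ rich i → u i = 0 := by
    intro i hi
    have := congrFun hu i
    rw [hT] at this
    simpa [hi] using this
  have h2 : ∀ k, (if rich k then u k else 0) = u k := by
    intro k
    by_cases hk : rich k
    · simp [hk]
    · simp [hk, h1 k hk]
  have h3 : ∀ i, rich i → ∑ k, A i k * u k = - m i := by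
    intro i hi
    have := congrFun hu i
    rw [hT] at this
    simp_rw [h2] at this
    simpa [hi] using this
  have h4 := quad_lower A rich g L n r hL hn hr hA hg hrich hcond u h1
  -- the quadratic form is at most `|u| R`
  set s := Real.sqrt (∑ i, u i ^ 2) with hs
  have hs0 : 0 ≤ s := Real.sqrt_nonneg _
  have hs2 : s ^ 2 = ∑ i, u i ^ 2 := Real.sq_sqrt (Finset.sum_nonneg fun i _ => sq_nonneg _)
  have h5 : ∑ i, ∑ k, A i k * u i * u k ≤ s * R := by
    have e1 : ∑ i, ∑ k, A i k * u i * u k = ∑ i, u i * (- m i) := by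
      refine Finset.sum_congr rfl fun i _ => ?_
      have : ∑ k, A i k * u i * u k = u i * ∑ k, A i k * u k := by
        rw [Finset.mul_sum]
        exact Finset.sum_congr rfl fun k _ => by ring
      rw [this]
      by_cases hi : rich i
      · rw [h3 i hi]
      · rw [h1 i hi, zero_mul, zero_mul]
    rw [e1]
    have e2 := Finset.sum_mul_sq_le_sq_mul_sq Finset.univ u (fun i => - m i)
    simp only [neg_sq] at e2
    have e3 : (∑ i, u i * (- m i)) ^ 2 ≤ (s * R) ^ 2 := by
      refine e2.trans ?_
      rw [mul_pow, hs2]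
      exact mul_le_mul_of_nonneg_left hm (Finset.sum_nonneg fun i _ => sq_nonneg _)
    exact le_trans (le_abs_self _) (abs_le_of_sq_le_sq e3 (by positivity))
  rw [← hs2] at h4
  have hs_le : s ≤ 2 * R / L ^ 2 := by
    rw [le_div_iff₀ (by positivity)]
    by_contra hcon
    push Not at hcon
    have hs1 : 0 < s := by
      by_contra h0
      have : s = 0 := le_antisymm (not_lt.1 h0) hs0
      rw [this] at hcon
      linarith
    nlinarith
  refine ⟨u, h1, h3, ?_, ?_, ?_⟩
  · rw [← hs2]
    exact pow_le_pow_left₀ hs0 hs_le 2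
  · refine h5.trans ?_
    have e1 : s * R ≤ 2 * R / L ^ 2 * R := mul_le_mul_of_nonneg_right hs_le hR
    refine e1.trans ?_
    rw [div_pow, div_mul_eq_mul_div]
    gcongr
    nlinarith
  · intro i hi
    have e1 : |∑ k, A i k * u k| ≤ ∑ k, (n + 8 * r * L) * |u k| := by
      refine (Finset.abs_sum_le_sum_abs _ _).trans (Finset.sum_le_sum fun k _ => ?_)
      rw [abs_mul]
      have hLpos : 0 ≤ L := by linarith
      by_cases hk : rich k
      · have hik : i ≠ k := fun h => hi (h ▸ hk)
        have e2 := hA i k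
        rw [if_neg hik, sub_zero] at e2
        have e3 := hpoor i hi
        have e4 : n + 8 * r * g i ≤ n + 8 * r * L := by
          have := mul_le_mul_of_nonneg_left e3 (by positivity : (0 : ℝ) ≤ 8 * r)
          linarith
        exact mul_le_mul_of_nonneg_right (e2.trans e4) (abs_nonneg _)
      · rw [h1 k hk]; simp
    refine e1.trans ?_
    have hLpos : 0 ≤ L := by linarith
    have hpos : 0 ≤ n + 8 * r * L := by positivity
    rw [← Finset.mul_sum, mul_assoc (n + 8 * r * L)]
    refine mul_le_mul_of_nonneg_left ?_ hpos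
    have e5 : ∀ k, |u k| ≤ 2 * R / L ^ 2 := by
      intro k
      refine le_trans ?_ hs_le
      rw [hs]
      apply Real.abs_le_sqrt
      exact Finset.single_le_sum (f := fun i => u i ^ 2) (fun i _ => sq_nonneg (u i))
        (Finset.mem_univ k)
    calc ∑ k, |u k| ≤ ∑ _k : Fin d, 2 * R / L ^ 2 := Finset.sum_le_sum fun k _ => e5 k
      _ = d * (2 * R / L ^ 2) := by simp

end P262
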