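import Vale.Agent.P262.Round
import Vale.Agent.P262.Solve
import Vale.Agent.P262.Pairs

/-!
# P262: parameters and invariants
-/

namespace P262

/-- Numerical parameters and the inequalities they satisfy.
`n` bounds the number of new marks at a node, `n + 1` the number of marks, `f` the number of
fractional coordinates. -/
structure Par (d : ℕ) where
  K₁ : ℕ
  K : ℕ
  f : ℕ
  n : ℕ
  L : ℝ
  R : ℝ
  hd : 1 ≤ d
  hR : 1 ≤ R
  hL : 64 * R ≤ L
  hf : d + d * d + 1 ≤ f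
  hn : 32 * f * d ≤ n
  h4 : ((2 * n + 4 * f + n) / L ^ 2 + 8 * (2 * R / L) / L) * d ≤ 1 / 2
  h5 : (2 * n + 4 * f + n + 16 * R) * d * (2 * R / L ^ 2) * (4 * R) ≤ 1
  h6 : (4 * R + 2 * L * f + 5 * L * n) * (2 * R + 1) * (3 / 4) ^ K ≤ 1 / 4
  hK1 : 1 ≤ K₁
  h7 : 2 * L * (3 / 4) ^ (K₁ - 1) * (n + 1) ≤ 1
  hKK : K₁ < K
  h8 : n + 1 < 2 ^ (K - K₁)
  h9 : 2 * ((2 * C0 + 5) * (K + 1) * d + d) + 2 * C0 * d ≤ R ^ 2

/-- The data: vectors in the unit ball with diagonal second moment matrix, and levels `J`. -/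
structure Data (d : ℕ) (ι : Type) [Fintype ι] where
  P : Par d
  v : ι → Fin d → ℝ
  J : Fin d → ℕ
  lam : Fin d → ℝ
  hv : ∀ a, ∑ i, v a i ^ 2 ≤ 1
  hlam : ∀ i k, ∑ a, v a i * v a k = if i = k then lam i else 0
  hJ : Monotone J
  hJ1 : ∀ i, lam i / 2 ^ J i < P.L ^ 2
  hJ2 : ∀ i j, j < J i → P.L ^ 2 ≤ lam i / 2 ^ j

variable {d : ℕ} {ι : Type} [Fintype ι] [DecidableEq ι]

/-- coordinate sums over a multiset of marks -/
noncomputable def msum (v : ι → Fin d → ℝ) (S : Multiset ι) (i : Fin d) : ℝ :=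
  (S.map fun a => v a i).sum

/-- The potential at level `j`. -/
noncomputable def Psi (D : Data d ι) (j k : ℕ) (x : Fin d → ℝ) : ℝ :=
  ∑ i, if D.J i + D.P.K ≤ j then x i ^ 2 / 2 else
    if D.J i ≤ j then x i ^ 2 else if (i : ℕ) < k then x i ^ 2 - C0 else 0

/-- The allowed value of the potential at level `j`. -/
noncomputable def beta (D : Data d ι) (j : ℕ) : ℝ :=
  (2 * C0 + 5) * ∑ i, ((min (j + 1 - D.J i) (D.P.K + 1) : ℕ) : ℝ) +
    ∑ i, (1 - (3 / 4 : ℝ) ^ (j - D.J i - D.P.K))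

/-- Variants of the left end point. -/
noncomputable def varp (D : Data d ι) (j : ℕ) (p : Fin d → ℝ) (S : Multiset ι) : Fin d → ℝ :=
  fun i => p i + if D.J i + D.P.K ≤ j then msum D.v S i else 0

/-- Variants of the right end point. -/
noncomputable def varq (D : Data d ι) (j : ℕ) (q : Fin d → ℝ) (S : Multiset ι) : Fin d → ℝ :=
  fun i => q i - if D.J i + D.P.K ≤ j then msum D.v S i else 0

/-- The invariants of a node at level `j`. -/
structure Inv (D : Data d ι) (j : ℕ) (M : List ι) (W : Finset ι) (p q : Fin d → ℝ) : Prop where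
  hq : ∀ i, q i = p i + msum D.v M i + ∑ a ∈ W, D.v a i
  close : ∀ i k, |(∑ a ∈ W, D.v a i * D.v a k) - if i = k then D.lam i / 2 ^ j else 0| ≤
    (2 * D.P.n + 4 * D.P.f) + 8 * (2 * D.P.R / D.P.L) * Real.sqrt (D.lam i / 2 ^ j)
  energy : ∀ i, D.J i ≤ j → ∑ a ∈ W, D.v a i ^ 2 ≤ 4 * D.P.L ^ 2 * (9 / 16) ^ (j - D.J i)
  small : ∀ a ∈ W, ∀ i, D.J i + 1 ≤ j → |D.v a i| ≤ 2 * D.P.L * (3 / 4) ^ (j - 1 - D.J i)
  len : M.length ≤ D.P.n + 1
  marks : ∀ i, D.J i + D.P.K₁ ≤ j → ∀ (k : ℕ) (hk : k < M.length),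
    (D.P.n + 1) / 2 ^ (j - D.J i - D.P.K₁) + 1 ≤ k → |D.v M[k] i| * (D.P.n + 1) ≤ 1
  potp : ∀ S : Multiset ι, S ≤ M → ∀ k, Psi D j k (varp D j p S) ≤ beta D j
  potq : ∀ S : Multiset ι, S ≤ M → ∀ k, Psi D j k (varq D j q S) ≤ beta D j

end P262
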