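import Mathlib

/-!
# P262: diagonalisation of the second moment matrix, with sorted eigenvalues
-/

namespace P262

open scoped RealInnerProductSpace

theorem exists_diag {d : ℕ} {ι : Type*} [Fintype ι] (v : ι → EuclideanSpace ℝ (Fin d)) :
    ∃ (b : OrthonormalBasis (Fin d) ℝ (EuclideanSpace ℝ (Fin d))) (lam : Fin d → ℝ),
      Monotone lam ∧ (∀ i, 0 ≤ lam i) ∧
      ∀ i k, ∑ a, ⟪b i, v a⟫ * ⟪b k, v a⟫ = if i = k then lam i else 0 := by
  classical
  let T : EuclideanSpace ℝ (Fin d) →ₗ[ℝ] EuclideanSpace ℝ (Fin d) :=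
    ∑ a, (innerSL ℝ (v a)).toLinearMap.smulRight (v a)
  have hT : ∀ x, T x = ∑ a, ⟪v a, x⟫ • v a := by
    intro x
    simp only [T, LinearMap.sum_apply]
    rfl
  have hTxy : ∀ x y, ⟪x, T y⟫ = ∑ a, ⟪x, v a⟫ * ⟪y, v a⟫ := by
    intro x y
    rw [hT, inner_sum]
    refine Finset.sum_congr rfl fun a _ => ?_
    rw [inner_smul_right, real_inner_comm y (v a)]
    ring
  have hsym : T.IsSymmetric := by
    intro x y
    rw [real_inner_comm, hTxy, hTxy]
    exact Finset.sum_congr rfl fun a _ => by ring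
  have hn : Module.finrank ℝ (EuclideanSpace ℝ (Fin d)) = d := by simp
  have hmat : ∀ i k, ∑ a, ⟪hsym.eigenvectorBasis hn i, v a⟫ * ⟪hsym.eigenvectorBasis hn k, v a⟫ =
      if i = k then hsym.eigenvalues hn i else 0 := by
    intro i k
    rw [← hTxy, hsym.apply_eigenvectorBasis hn k, inner_smul_right]
    have h1 := orthonormal_iff_ite.mp (hsym.eigenvectorBasis hn).orthonormal i k
    rw [h1]
    split_ifs with h
    · rw [h]; simp
    · simp
  refine ⟨(hsym.eigenvectorBasis hn).reindex Fin.revPerm, fun i => hsym.eigenvalues hn (Fin.rev i),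
    ?_, ?_, ?_⟩
  · intro i j hij
    exact hsym.eigenvalues_antitone hn (Fin.rev_le_rev.mpr hij)
  · intro i
    have h1 := hmat (Fin.rev i) (Fin.rev i)
    rw [if_pos rfl] at h1
    show 0 ≤ hsym.eigenvalues hn (Fin.rev i)
    rw [← h1]
    exact Finset.sum_nonneg fun a _ => mul_self_nonneg _
  · intro i k
    simp only [OrthonormalBasis.reindex_apply, Fin.revPerm_symm, Fin.revPerm_apply]
    rw [hmat]
    simp [Fin.rev_inj]

/-- Levels at which the coordinates stop being rich. -/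
theorem exists_levels {d : ℕ} (lam : Fin d → ℝ) (hlam : Monotone lam) (L : ℝ) (hL : 0 < L) :
    ∃ J : Fin d → ℕ, Monotone J ∧ (∀ i, lam i / 2 ^ J i < L ^ 2) ∧
      ∀ i j, j < J i → L ^ 2 ≤ lam i / 2 ^ j := by
  classical
  have hex : ∀ i, ∃ j : ℕ, lam i / 2 ^ j < L ^ 2 := by
    intro i
    obtain ⟨j, hj⟩ := pow_unbounded_of_one_lt (lam i / L ^ 2) (by norm_num : (1 : ℝ) < 2)
    refine ⟨j, ?_⟩
    rw [div_lt_iff₀ (by positivity)] at hj ⊢
    linarith
  refine ⟨fun i => Nat.find (hex i), ?_, fun i => Nat.find_spec (hex i), ?_⟩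
  · intro i k hik
    refine Nat.find_min' (hex i) ?_
    have h1 := Nat.find_spec (hex k)
    refine lt_of_le_of_lt ?_ h1
    have h2 := hlam hik
    gcongr
  · intro i j hj
    exact not_lt.mp (Nat.find_min (hex i) hj)

end P262
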