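import Vale.Agent.P262.Defs

/-!
# P262: choice of the parameters
-/

namespace P262

lemma pow_three_quarter (t : ℕ) : ((3 : ℝ) / 4) ^ (3 * t) ≤ (1 / 2) ^ t := by
  rw [pow_mul]
  exact pow_le_pow_left₀ (by norm_num) (by norm_num) t

theorem exists_par (d : ℕ) (hd : 1 ≤ d) :
    ∃ P : Par d, P.R ^ 2 ≤ 2 ^ 24 * d * (Nat.log 2 (d + 1) + 1) := by
  obtain ⟨l, hl⟩ : ∃ l : ℕ, l = Nat.log 2 (d + 1) + 1 := ⟨_, rfl⟩
  have hl1 : 1 ≤ l := by omega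
  have hDl : d + 1 < 2 ^ l := by rw [hl]; exact Nat.lt_pow_succ_log_self (by norm_num) _
  have hld : l ≤ d + 1 := by
    have := Nat.log_lt_self 2 (x := d + 1) (by omega)
    omega
  obtain ⟨D, hD⟩ : ∃ D : ℝ, D = (d : ℝ) + 1 := ⟨_, rfl⟩
  have hd' : (1 : ℝ) ≤ d := by exact_mod_cast hd
  have hD2 : 2 ≤ D := by rw [hD]; linarith
  have hD1 : 1 ≤ D := by linarith
  have hl1' : (1 : ℝ) ≤ l := by exact_mod_cast hl1
  have hlD : (l : ℝ) ≤ D := by rw [hD]; exact_mod_cast hld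
  have hDl' : D ≤ 2 ^ l := by rw [hD]; exact_mod_cast hDl.le
  have hdD : (d : ℝ) ≤ D := by rw [hD]; linarith
  obtain ⟨R, hR⟩ : ∃ R : ℝ, R = 2 ^ 12 * Real.sqrt (d * l) := ⟨_, rfl⟩
  have hdl0 : (0 : ℝ) ≤ d * l := by positivity
  have hR2 : R ^ 2 = 2 ^ 24 * (d * l) := by
    rw [hR, mul_pow, Real.sq_sqrt hdl0]; norm_num
  have hR0 : 0 ≤ R := by rw [hR]; positivity
  have hRD : R ≤ 2 ^ 12 * D := by
    rw [hR]
    have h1 : Real.sqrt (d * l) ≤ D := by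
      rw [Real.sqrt_le_iff]
      refine ⟨by linarith, ?_⟩
      nlinarith
    nlinarith
  have hR1 : 1 ≤ R := by
    have h1 : 1 ≤ Real.sqrt (d * l) := by
      rw [Real.one_le_sqrt]
      nlinarith
    rw [hR]; linarith
  -- powers of D
  have hDp : ∀ a b : ℕ, a ≤ b → D ^ a ≤ D ^ b := fun a b hab => pow_le_pow_right₀ hD1 hab
  have hDpos : ∀ a : ℕ, 0 < D ^ a := fun a => by positivity
  have hDl6 : D ^ 6 ≤ 2 ^ (6 * l) := by
    rw [mul_comm, pow_mul]; exact pow_le_pow_left₀ (by linarith) hDl' 6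
  have hDl7 : D ^ 7 ≤ 2 ^ (7 * l) := by
    rw [mul_comm, pow_mul]; exact pow_le_pow_left₀ (by linarith) hDl' 7
  have hcf : (((d + 1) ^ 2 : ℕ) : ℝ) = D ^ 2 := by rw [hD]; push_cast; ring
  have hcn : ((32 * (d + 1) ^ 3 : ℕ) : ℝ) = 32 * D ^ 3 := by rw [hD]; push_cast; ring
  refine ⟨⟨88 + 18 * l, 138 + 21 * l, (d + 1) ^ 2, 32 * (d + 1) ^ 3, 2 ^ 22 * D ^ 3, R, hd, hR1,
    ?_, ?_, ?_, ?_, ?_, ?_, ?_, ?_, ?_, ?_, ?_⟩, ?_⟩
  · -- hL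
    have h1 := hDp 1 3 (by norm_num)
    rw [pow_one] at h1
    nlinarith
  · nlinarith
  · have h1 : d ≤ d + 1 := by omega
    calc 32 * (d + 1) ^ 2 * d ≤ 32 * (d + 1) ^ 2 * (d + 1) := Nat.mul_le_mul_left _ h1
      _ = 32 * (d + 1) ^ 3 := by ring
  · -- h4
    rw [hcf, hcn]
    have hL2 : (2 ^ 22 * D ^ 3) ^ 2 = 2 ^ 44 * D ^ 6 := by ring
    have e1 : (2 * (32 * D ^ 3) + 4 * D ^ 2 + 32 * D ^ 3) / (2 ^ 22 * D ^ 3) ^ 2 +
        8 * (2 * R / (2 ^ 22 * D ^ 3)) / (2 ^ 22 * D ^ 3) =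
        (96 * D ^ 3 + 4 * D ^ 2 + 16 * R) / (2 ^ 44 * D ^ 6) := by
      have : D ≠ 0 := by linarith
      field_simp
      ring
    rw [e1, div_mul_eq_mul_div, div_le_iff₀ (by positivity)]
    have h2 := hDp 2 3 (by norm_num)
    have h1 := hDp 1 3 (by norm_num)
    rw [pow_one] at h1
    have h3 : 96 * D ^ 3 + 4 * D ^ 2 + 16 * R ≤ 2 ^ 17 * D ^ 3 := by linarith
    have h4 : (96 * D ^ 3 + 4 * D ^ 2 + 16 * R) * d ≤ (2 ^ 17 * D ^ 3) * D :=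
      mul_le_mul h3 hdD (by positivity) (by positivity)
    have h5 : (2 ^ 17 * D ^ 3) * D = 2 ^ 17 * D ^ 4 := by ring
    have h6 := hDp 4 6 (by norm_num)
    have h7 := hDpos 6
    linarith
  · -- h5
    rw [hcf, hcn]
    have e1 : (2 * (32 * D ^ 3) + 4 * D ^ 2 + 32 * D ^ 3 + 16 * R) * d *
        (2 * R / (2 ^ 22 * D ^ 3) ^ 2) * (4 * R) =
        (96 * D ^ 3 + 4 * D ^ 2 + 16 * R) * (8 * d * R ^ 2) / (2 ^ 44 * D ^ 6) := by
      have : D ≠ 0 := by linarith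
      field_simp
      ring
    rw [e1, div_le_one (by positivity)]
    have h2 := hDp 2 3 (by norm_num)
    have h1 := hDp 1 3 (by norm_num)
    rw [pow_one] at h1
    have h3 : 96 * D ^ 3 + 4 * D ^ 2 + 16 * R ≤ 2 ^ 17 * D ^ 3 := by linarith
    have h4 : R ^ 2 ≤ 2 ^ 24 * D ^ 2 := by
      calc R ^ 2 ≤ (2 ^ 12 * D) ^ 2 := pow_le_pow_left₀ hR0 hRD 2
        _ = 2 ^ 24 * D ^ 2 := by ring
    have h5 : 8 * (d : ℝ) * R ^ 2 ≤ 8 * D * (2 ^ 24 * D ^ 2) := by gcongr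
    calc (96 * D ^ 3 + 4 * D ^ 2 + 16 * R) * (8 * d * R ^ 2) ≤
        (2 ^ 17 * D ^ 3) * (8 * D * (2 ^ 24 * D ^ 2)) :=
          mul_le_mul h3 h5 (by positivity) (by positivity)
      _ = 2 ^ 44 * D ^ 6 := by ring
  · -- h6
    rw [hcf, hcn]
    have h1 := hDp 1 6 (by norm_num)
    rw [pow_one] at h1
    have h5 := hDp 5 6 (by norm_num)
    have h6 := hDpos 6
    have e1 : 4 * R + 2 * (2 ^ 22 * D ^ 3) * D ^ 2 + 5 * (2 ^ 22 * D ^ 3) * (32 * D ^ 3) ≤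
        2 ^ 30 * D ^ 6 := by
      have e2 : 4 * R + 2 * (2 ^ 22 * D ^ 3) * D ^ 2 + 5 * (2 ^ 22 * D ^ 3) * (32 * D ^ 3) =
        4 * R + 2 ^ 23 * D ^ 5 + 5 * 2 ^ 27 * D ^ 6 := by ring
      rw [e2]
      linarith
    have e3 : 2 * R + 1 ≤ 2 ^ 14 * D := by linarith
    have e4 : ((3 : ℝ) / 4) ^ (138 + 21 * l) ≤ (1 / 2) ^ (46 + 7 * l) := by
      have := pow_three_quarter (46 + 7 * l)
      rwa [show 3 * (46 + 7 * l) = 138 + 21 * l by ring] at this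
    calc (4 * R + 2 * (2 ^ 22 * D ^ 3) * D ^ 2 + 5 * (2 ^ 22 * D ^ 3) * (32 * D ^ 3)) *
          (2 * R + 1) * (3 / 4) ^ (138 + 21 * l)
        ≤ (2 ^ 30 * D ^ 6) * (2 ^ 14 * D) * (1 / 2) ^ (46 + 7 * l) := by gcongr
      _ = 2 ^ 44 * D ^ 7 * (1 / 2) ^ (46 + 7 * l) := by ring
      _ ≤ 2 ^ 44 * 2 ^ (7 * l) * (1 / 2) ^ (46 + 7 * l) := by gcongr
      _ = 1 / 4 := by
        rw [pow_add (1 / 2 : ℝ) 46 (7 * l), one_div, inv_pow 2 (7 * l), inv_pow 2 46]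
        field_simp
        norm_num
  · omega
  · -- h7
    rw [hcn]
    have e4 : ((3 : ℝ) / 4) ^ (88 + 18 * l - 1) ≤ (1 / 2) ^ (29 + 6 * l) := by
      have := pow_three_quarter (29 + 6 * l)
      rwa [show 3 * (29 + 6 * l) = 88 + 18 * l - 1 by omega] at this
    have h3 : 1 ≤ D ^ 3 := one_le_pow₀ hD1
    calc 2 * (2 ^ 22 * D ^ 3) * (3 / 4) ^ (88 + 18 * l - 1) * (32 * D ^ 3 + 1)
        ≤ 2 * (2 ^ 22 * D ^ 3) * (1 / 2) ^ (29 + 6 * l) * (64 * D ^ 3) := by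
          gcongr
          linarith
      _ = 2 ^ 29 * D ^ 6 * (1 / 2) ^ (29 + 6 * l) := by ring
      _ ≤ 2 ^ 29 * 2 ^ (6 * l) * (1 / 2) ^ (29 + 6 * l) := by gcongr
      _ = 1 := by
        rw [pow_add (1 / 2 : ℝ) 29 (6 * l), one_div, inv_pow 2 (6 * l), inv_pow 2 29]
        field_simp
  · omega
  · -- h8
    have e1 : 138 + 21 * l - (88 + 18 * l) = 50 + 3 * l := by omega
    rw [e1]
    have e2 : (d + 1) ^ 3 ≤ 2 ^ (3 * l) := by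
      rw [mul_comm, pow_mul]; exact Nat.pow_le_pow_left hDl.le 3
    have e3 : 1 ≤ 2 ^ (3 * l) := Nat.one_le_two_pow
    calc 32 * (d + 1) ^ 3 + 1 ≤ 32 * 2 ^ (3 * l) + 2 ^ (3 * l) := by omega
      _ = 33 * 2 ^ (3 * l) := by ring
      _ < 2 ^ 50 * 2 ^ (3 * l) := by
          apply Nat.mul_lt_mul_of_pos_right (by norm_num) (by positivity)
      _ = 2 ^ (50 + 3 * l) := by rw [pow_add]
  · -- h9
    rw [hR2]
    unfold C0
    push_cast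
    have e1 : (d : ℝ) ≤ d * l := by nlinarith
    nlinarith
  · show R ^ 2 ≤ _
    rw [hR2, hl]
    push_cast
    linarith

end P262
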