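import Vale.Agent.P262.Tree
import Vale.Agent.P262.Param
import Vale.Agent.P262.Diag

/-!
# P262: the Euclidean Steinitz constant is `O(sqrt (d log d))`
-/

namespace P262

open scoped RealInnerProductSpace

theorem log_bound (d : ℕ) (hd : 1 ≤ d) :
    ((Nat.log 2 (d + 1) : ℕ) : ℝ) + 1 ≤ 4 * (1 + Real.log d) := by
  have h1 : (2 : ℝ) ^ (Nat.log 2 (d + 1)) ≤ d + 1 := by
    have := Nat.pow_log_le_self 2 (x := d + 1) (by omega)
    exact_mod_cast this
  have h2 : (Nat.log 2 (d + 1) : ℝ) * Real.log 2 ≤ Real.log (d + 1) := by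
    rw [← Real.log_pow]
    exact Real.log_le_log (by positivity) h1
  have hd' : (1 : ℝ) ≤ d := by exact_mod_cast hd
  have h3 : Real.log (d + 1) ≤ Real.log 2 + Real.log d := by
    rw [← Real.log_mul (by norm_num) (by positivity)]
    exact Real.log_le_log (by positivity) (by linarith)
  have h4 : (0.6931471803 : ℝ) < Real.log 2 := Real.log_two_gt_d9
  have h5 : 0 ≤ Real.log d := Real.log_nonneg hd'
  have h6 : 0 ≤ (Nat.log 2 (d + 1) : ℝ) := Nat.cast_nonneg _
  nlinarith

theorem steinitz_sq (d : ℕ) (hd : 1 ≤ d) (N : ℕ) (v : Fin N → EuclideanSpace ℝ (Fin d))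
    (hv : ∀ i, ‖v i‖ ≤ 1) (h0 : ∑ i, v i = 0) :
    ∃ π : Equiv.Perm (Fin N), ∀ k : ℕ,
      ‖∑ i ∈ Finset.univ.filter (fun i : Fin N => (i : ℕ) < k), v (π i)‖ ^ 2 ≤
        2 ^ 24 * d * (Nat.log 2 (d + 1) + 1) := by
  obtain ⟨P, hP⟩ := exists_par d hd
  obtain ⟨b, lam, hmono, -, hlam⟩ := exists_diag v
  have hLpos : 0 < P.L := by
    have h1 := P.hL
    have h2 := P.hR
    linarith
  obtain ⟨J, hJ, hJ1, hJ2⟩ := exists_levels lam hmono P.L hLpos
  have hpars : ∀ x : EuclideanSpace ℝ (Fin d), ∑ i, ⟪b i, x⟫ ^ 2 = ‖x‖ ^ 2 := by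
    intro x
    have := b.sum_sq_norm_inner_right x
    simpa [Real.norm_eq_abs, sq_abs] using this
  let D : Data d (Fin N) :=
    { P := P
      v := fun a i => ⟪b i, v a⟫
      J := J
      lam := lam
      hv := by
        intro a
        rw [hpars]
        have := hv a
        have h2 := norm_nonneg (v a)
        nlinarith
      hlam := hlam
      hJ := hJ
      hJ1 := hJ1
      hJ2 := hJ2 }
  have hs : ∀ i, ∑ a, D.v a i = 0 := by
    intro i
    change ∑ a, ⟪b i, v a⟫ = 0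
    rw [← inner_sum, h0, inner_zero_right]
  obtain ⟨l, hl, hb⟩ := exists_order D hs
  have hnd : l.Nodup := by
    have : (l : Multiset (Fin N)).Nodup := by rw [hl]; exact Finset.univ.nodup
    exact Multiset.coe_nodup.1 this
  have hmem : ∀ x : Fin N, x ∈ l := by
    intro x
    have : x ∈ (l : Multiset (Fin N)) := by rw [hl]; exact Finset.mem_univ x
    exact Multiset.mem_coe.1 this
  have hlen : l.length = N := by
    have : Multiset.card (l : Multiset (Fin N)) = N := by
      rw [hl]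
      simp
    simpa using this
  let e := List.Nodup.getEquivOfForallMemList l hnd hmem
  let π : Equiv.Perm (Fin N) := (finCongr hlen.symm).trans e
  have hπ : ∀ i : Fin N, π i = l.get ⟨i, by rw [hlen]; exact i.2⟩ := by
    intro i
    rfl
  have hmap : ∀ {β : Type} (f : Fin N → β), l.map f = List.ofFn fun i => f (π i) := by
    intro β f
    apply List.ext_getElem
    · simp [hlen]
    · intro n h1 h2
      simp [hπ]
  refine ⟨π, fun k => ?_⟩
  have h1 : ∑ i ∈ Finset.univ.filter (fun i : Fin N => (i : ℕ) < k), v (π i) =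
      ((l.take k).map v).sum := by
    rw [List.map_take, hmap, List.sum_take_ofFn]
  have h2 : ∀ i, ⟪b i, ((l.take k).map v).sum⟫ = ((l.take k).map fun a => D.v a i).sum := by
    intro i
    generalize l.take k = m
    induction m with
    | nil => simp
    | cons a m ih =>
      rw [List.map_cons, List.sum_cons, inner_add_right, ih, List.map_cons, List.sum_cons]
  rw [h1, ← hpars]
  simp_rw [h2]
  exact (hb k).trans hP

theorem steinitz : ∃ C : ℝ, ∀ d : ℕ, 1 ≤ d → ∀ (N : ℕ) (v : Fin N → EuclideanSpace ℝ (Fin d)),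
    (∀ i, ‖v i‖ ≤ 1) → ∑ i, v i = 0 → ∃ π : Equiv.Perm (Fin N), ∀ k : ℕ, k ≤ N →
      ‖∑ i ∈ Finset.univ.filter (fun i : Fin N => (i : ℕ) < k), v (π i)‖ ≤
        C * Real.sqrt (d * (1 + Real.log d)) := by
  refine ⟨2 ^ 13, fun d hd N v hv h0 => ?_⟩
  obtain ⟨π, hπ⟩ := steinitz_sq d hd N v hv h0
  refine ⟨π, fun k _ => ?_⟩
  have h1 := hπ k
  have h2 := log_bound d hd
  have hd' : (1 : ℝ) ≤ d := by exact_mod_cast hd
  have h5 : 0 ≤ Real.log d := Real.log_nonneg hd'
  have h3 : 2 ^ 24 * (d : ℝ) * (Nat.log 2 (d + 1) + 1) ≤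
      (2 ^ 13 * Real.sqrt (d * (1 + Real.log d))) ^ 2 := by
    rw [mul_pow, Real.sq_sqrt (by positivity)]
    nlinarith
  exact abs_le_of_sq_le_sq' (h1.trans h3) (by positivity) |>.2

end P262
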