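import Mathlib

/-!
# P262: elementary moves in the cube

The basic tool: starting from a point `x` of the cube `[-1,1]^κ` we move along directions which
keep the linear map `G`, are orthogonal to the current position, and do not increase the
potential, until at most `r + 1` coordinates are not `± 1`.
-/

namespace P262

/-- A nonzero direction supported on the fractional coordinates, killed by `G` and orthogonal
to the current position. -/
theorem exists_dir {κ : Type*} [Fintype κ] {r : ℕ}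
    (G : (κ → ℝ) →ₗ[ℝ] (Fin r → ℝ)) (x : κ → ℝ) (hx : ∀ l, |x l| ≤ 1)
    (hc : r + 1 < (Finset.univ.filter fun l => |x l| < 1).card) :
    ∃ h : κ → ℝ, h ≠ 0 ∧ (∀ l, |x l| = 1 → h l = 0) ∧ G h = 0 ∧ ∑ l, x l * h l = 0 := by
  classical
  set F := Finset.univ.filter fun l => |x l| < 1 with hF
  -- extension by zero
  let ext : (F → ℝ) →ₗ[ℝ] (κ → ℝ) :=
    { toFun := fun h l => if hl : l ∈ F then h ⟨l, hl⟩ else 0
      map_add' := by
        intro a b
        funext l
        by_cases hl : l ∈ F <;> simp [hl]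
      map_smul' := by
        intro a b
        funext l
        by_cases hl : l ∈ F <;> simp [hl] }
  let ip : (κ → ℝ) →ₗ[ℝ] ℝ :=
    { toFun := fun h => ∑ l, x l * h l
      map_add' := by
        intro a b
        simp [mul_add, Finset.sum_add_distrib]
      map_smul' := by
        intro a b
        simp only [Pi.smul_apply, smul_eq_mul, RingHom.id_apply, Finset.mul_sum]
        refine Finset.sum_congr rfl fun l _ => ?_
        ring }
  let T : (F → ℝ) →ₗ[ℝ] ((Fin r → ℝ) × ℝ) := (G.prod ip).comp ext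
  have hker : T.ker ≠ ⊥ := by
    apply LinearMap.ker_ne_bot_of_finrank_lt
    rw [Module.finrank_prod, Module.finrank_fin_fun, Module.finrank_self,
      Module.finrank_fintype_fun_eq_card, Fintype.card_coe]
    exact hc
  obtain ⟨h, hmem, hne⟩ := (Submodule.ne_bot_iff _).1 hker
  rw [LinearMap.mem_ker] at hmem
  have h1 : G (ext h) = 0 := congrArg Prod.fst hmem
  have h2 : ip (ext h) = 0 := congrArg Prod.snd hmem
  refine ⟨ext h, ?_, ?_, h1, h2⟩
  · intro h0
    apply hne
    funext l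
    have := congrFun h0 l
    simpa [ext] using this
  · intro l hl
    have : l ∉ F := by
      rw [hF, Finset.mem_filter]
      rintro ⟨_, h3⟩
      rw [hl] at h3
      exact lt_irrefl _ h3
    show (if hl : l ∈ F then h ⟨l, hl⟩ else 0) = 0
    rw [dif_neg this]

/-- The largest step in direction `h`. -/
theorem exists_step {κ : Type*} [Fintype κ] (x h : κ → ℝ) (hx : ∀ l, |x l| ≤ 1) (hne : h ≠ 0)
    (hsupp : ∀ l, |x l| = 1 → h l = 0) :
    ∃ t : ℝ, 0 ≤ t ∧ (∀ l, |x l + t * h l| ≤ 1) ∧ ∃ l, |x l| < 1 ∧ |x l + t * h l| = 1 := by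
  classical
  obtain ⟨l₁, hl₁⟩ : ∃ l, h l ≠ 0 := by
    by_contra hcon
    push Not at hcon
    exact hne (funext hcon)
  set S := Finset.univ.filter fun l => h l ≠ 0 with hS
  have hSne : S.Nonempty := ⟨l₁, by simp [hS, hl₁]⟩
  -- exit time of the coordinate `l`
  let τ : κ → ℝ := fun l => (1 - SignType.sign (h l) * x l) / |h l|
  obtain ⟨l₀, hl₀, hmin⟩ := S.exists_min_image τ hSne
  have hl₀' : h l₀ ≠ 0 := by simpa [hS] using hl₀
  have hsgn : ∀ l, h l ≠ 0 → |h l| = SignType.sign (h l) * h l := fun l _ =>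
    (sign_mul_self (h l)).symm
  have hsq : ∀ l, h l ≠ 0 → ((SignType.sign (h l) : SignType) : ℝ) ^ 2 = 1 := by
    intro l hl
    rcases lt_or_gt_of_ne hl with h1 | h1
    · rw [sign_neg h1]; norm_num
    · rw [sign_pos h1]; norm_num
  have hval : ∀ l, h l ≠ 0 → ∀ t, (((SignType.sign (h l) : SignType) : ℝ) * (x l + t * h l)) =
      SignType.sign (h l) * x l + t * |h l| := by
    intro l hl t
    rw [hsgn l hl]
    ring
  have hxs : ∀ l, h l ≠ 0 → |((SignType.sign (h l) : SignType) : ℝ) * x l| ≤ 1 := by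
    intro l hl
    rcases lt_or_gt_of_ne hl with h1 | h1
    · rw [sign_neg h1]; simpa using hx l
    · rw [sign_pos h1]; simpa using hx l
  have habs : ∀ l, h l ≠ 0 → ∀ y : ℝ, |y| = |((SignType.sign (h l) : SignType) : ℝ) * y| := by
    intro l hl y
    rcases lt_or_gt_of_ne hl with h1 | h1
    · rw [sign_neg h1]; simp
    · rw [sign_pos h1]; simp
  have hτ0 : 0 ≤ τ l₀ := by
    have := (abs_le.1 (hxs l₀ hl₀')).2
    have h3 : 0 < |h l₀| := abs_pos.2 hl₀'
    exact div_nonneg (by linarith) h3.le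
  refine ⟨τ l₀, hτ0, ?_, l₀, ?_, ?_⟩
  · intro l
    by_cases hl : h l = 0
    · rw [hl, mul_zero, add_zero]
      exact hx l
    · rw [habs l hl, hval l hl, abs_le]
      have h1 := abs_le.1 (hxs l hl)
      have h3 : 0 < |h l| := abs_pos.2 hl
      have h4 : τ l₀ ≤ τ l := hmin l (by simp [hS, hl])
      have h5 : τ l * |h l| = 1 - SignType.sign (h l) * x l := by
        show (1 - SignType.sign (h l) * x l) / |h l| * |h l| = _
        field_simp
      constructor
      · nlinarith [mul_nonneg hτ0 h3.le]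
      · nlinarith [mul_le_mul_of_nonneg_right h4 h3.le]
  · rcases lt_or_eq_of_le (hx l₀) with h1 | h1
    · exact h1
    · exact absurd (hsupp l₀ h1) hl₀'
  · rw [habs l₀ hl₀', hval l₀ hl₀']
    have h3 : 0 < |h l₀| := abs_pos.2 hl₀'
    have h5 : τ l₀ * |h l₀| = 1 - SignType.sign (h l₀) * x l₀ := by
      show (1 - SignType.sign (h l₀) * x l₀) / |h l₀| * |h l₀| = _
      field_simp
    rw [h5]
    norm_num

theorem moves {κ : Type*} [Fintype κ] {r m : ℕ}
    (G : (κ → ℝ) →ₗ[ℝ] (Fin r → ℝ)) (U : (κ → ℝ) →ₗ[ℝ] (Fin m → ℝ)) (B : ℝ) (x : κ → ℝ)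
    (hU : ∀ h : κ → ℝ, (∀ l, |x l| = 1 → h l = 0) → G h = 0 →
      ∑ i, U h i ^ 2 ≤ B * ∑ l, h l ^ 2)
    (c : Fin m → ℝ) (hx : ∀ l, |x l| ≤ 1) :
    ∃ x' : κ → ℝ, (∀ l, |x' l| ≤ 1) ∧ (∀ l, |x l| = 1 → x' l = x l) ∧ G x' = G x ∧
      (Finset.univ.filter fun l => |x' l| < 1).card ≤ r + 1 ∧
      ∑ i, (c i + U x' i - U x i) ^ 2 ≤ ∑ i, c i ^ 2 + B * (∑ l, x' l ^ 2 - ∑ l, x l ^ 2) := by
  classical
  induction hn : (Finset.univ.filter fun l => |x l| < 1).card using Nat.strong_induction_on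
    generalizing x c with
  | _ n ih =>
  subst hn
  by_cases hc : (Finset.univ.filter fun l => |x l| < 1).card ≤ r + 1
  · refine ⟨x, hx, fun _ _ => rfl, rfl, hc, ?_⟩
    simp
  push Not at hc
  -- choose the direction, with the right sign
  obtain ⟨h, hne, hsupp, hG, hxh, hsign⟩ : ∃ h : κ → ℝ, h ≠ 0 ∧ (∀ l, |x l| = 1 → h l = 0) ∧
      G h = 0 ∧ ∑ l, x l * h l = 0 ∧ ∑ i, c i * U h i ≤ 0 := by
    obtain ⟨h, h1, h2, h3, h4⟩ := exists_dir G x hx hc
    by_cases hs : ∑ i, c i * U h i ≤ 0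
    · exact ⟨h, h1, h2, h3, h4, hs⟩
    · push Not at hs
      refine ⟨-h, neg_ne_zero.2 h1, fun l hl => by simp [h2 l hl], by simp [h3], ?_, ?_⟩
      · simp only [Pi.neg_apply, mul_neg, Finset.sum_neg_distrib, h4, neg_zero]
      · simp only [map_neg, Pi.neg_apply, mul_neg, Finset.sum_neg_distrib]
        linarith
  obtain ⟨t, ht, hle, l₀, hl₀, hl₀'⟩ := exists_step x h hx hne hsupp
  set x₁ : κ → ℝ := fun l => x l + t * h l with hx₁
  have hx₁' : x₁ = x + t • h := by
    funext l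
    simp [hx₁]
  have hlt : (Finset.univ.filter fun l => |x₁ l| < 1).card <
      (Finset.univ.filter fun l => |x l| < 1).card := by
    apply Finset.card_lt_card
    rw [Finset.ssubset_iff_of_subset]
    · refine ⟨l₀, by simp [hl₀], ?_⟩
      rw [Finset.mem_filter]
      rintro ⟨_, h5⟩
      rw [hx₁] at h5
      rw [hl₀'] at h5
      exact lt_irrefl _ h5
    · intro l hl
      rw [Finset.mem_filter] at hl ⊢
      refine ⟨hl.1, ?_⟩
      rcases lt_or_eq_of_le (hx l) with h5 | h5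
      · exact h5
      · have h6 := hl.2
        rw [hx₁] at h6
        simp only [hsupp l h5, mul_zero, add_zero, h5] at h6
        exact absurd h6 (lt_irrefl _)
  have hfix : ∀ l, |x l| = 1 → x₁ l = x l := fun l hl => by
    simp [hx₁, hsupp l hl]
  have hU₁ : U x₁ = U x + t • U h := by rw [hx₁', map_add, map_smul]
  have hG₁ : G x₁ = G x := by rw [hx₁', map_add, map_smul, hG, smul_zero, add_zero]
  obtain ⟨x', h1, h2, h3, h4, h5⟩ := ih _ hlt x₁ (fun h' hh' hG' => by
    refine hU h' (fun l hl => hh' l ?_) hG'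
    rw [hfix l hl]
    exact hl) (fun i => c i + t * U h i) hle rfl
  refine ⟨x', h1, fun l hl => ?_, h3.trans hG₁, h4, ?_⟩
  · rw [h2 l (by rw [hfix l hl]; exact hl), hfix l hl]
  · have e1 : ∑ i, (c i + U x' i - U x i) ^ 2 =
        ∑ i, ((c i + t * U h i) + U x' i - U x₁ i) ^ 2 := by
      refine Finset.sum_congr rfl fun i _ => ?_
      rw [hU₁]
      simp only [Pi.add_apply, Pi.smul_apply, smul_eq_mul]
      ring
    have e2 : ∑ i, (c i + t * U h i) ^ 2 =
        ∑ i, c i ^ 2 + 2 * t * ∑ i, c i * U h i + t ^ 2 * ∑ i, U h i ^ 2 := by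
      rw [Finset.mul_sum, Finset.mul_sum, ← Finset.sum_add_distrib, ← Finset.sum_add_distrib]
      refine Finset.sum_congr rfl fun i _ => ?_
      ring
    have e3 : ∑ l, x₁ l ^ 2 = ∑ l, x l ^ 2 + 2 * t * ∑ l, x l * h l + t ^ 2 * ∑ l, h l ^ 2 := by
      rw [Finset.mul_sum, Finset.mul_sum, ← Finset.sum_add_distrib, ← Finset.sum_add_distrib]
      refine Finset.sum_congr rfl fun i _ => ?_
      simp only [hx₁]
      ring
    rw [hxh] at e3
    have e4 := hU h hsupp hG
    rw [e1]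
    refine h5.trans ?_
    rw [e2, e3]
    have e5 : 2 * t * ∑ i, c i * U h i ≤ 0 := mul_nonpos_of_nonneg_of_nonpos (by linarith) hsign
    have e6 : t ^ 2 * ∑ i, U h i ^ 2 ≤ t ^ 2 * (B * ∑ l, h l ^ 2) :=
      mul_le_mul_of_nonneg_left e4 (sq_nonneg t)
    nlinarith

end P262
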