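import Vale.Agent.P262.Defs

/-!
# P262: the potential
-/

namespace P262

variable {d : ℕ} {ι : Type} [Fintype ι] [DecidableEq ι]

/-- thresholds of a monotone sequence of levels -/
theorem exists_thr (J : Fin d → ℕ) (hJ : Monotone J) (m : ℕ) :
    ∃ y : ℕ, ∀ i : Fin d, J i ≤ m ↔ (i : ℕ) < y := by
  classical
  refine ⟨(Finset.univ.filter fun i => J i ≤ m).card, fun i => ⟨fun h => ?_, fun h => ?_⟩⟩
  · have h1 : Finset.univ.filter (fun k : Fin d => k ≤ i) ⊆
        Finset.univ.filter fun k => J k ≤ m := by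
      intro k hk
      simp only [Finset.mem_filter, Finset.mem_univ, true_and] at hk ⊢
      exact (hJ hk).trans h
    have h2 := Finset.card_le_card h1
    have h3 : (Finset.univ.filter (fun k : Fin d => k ≤ i)).card = (i : ℕ) + 1 := by
      rw [show Finset.univ.filter (fun k : Fin d => k ≤ i) = Finset.Iic i by ext; simp]
      exact Fin.card_Iic i
    omega
  · by_contra hcon
    have h1 : Finset.univ.filter (fun k => J k ≤ m) ⊆
        Finset.univ.filter (fun k : Fin d => k < i) := by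
      intro k hk
      simp only [Finset.mem_filter, Finset.mem_univ, true_and] at hk ⊢
      by_contra hki
      exact hcon ((hJ (not_lt.1 hki)).trans hk)
    have h2 := Finset.card_le_card h1
    have h3 : (Finset.univ.filter (fun k : Fin d => k < i)).card = (i : ℕ) := by
      rw [show Finset.univ.filter (fun k : Fin d => k < i) = Finset.Iio i by ext; simp]
      exact Fin.card_Iio i
    omega

theorem C0_pos : 0 < C0 := by unfold C0; norm_num

theorem K_pos (P : Par d) : 1 ≤ P.K := by
  have := P.hK1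
  have := P.hKK
  omega

/-- summands of the increment of `beta` -/
noncomputable def binc (D : Data d ι) (j : ℕ) (i : Fin d) : ℝ :=
  if D.J i + D.P.K ≤ j then 1 / 4 * (3 / 4 : ℝ) ^ (j - D.J i - D.P.K) else
    if D.J i ≤ j + 1 then 2 * C0 + 5 else 0

omit [DecidableEq ι] in
theorem beta_succ (D : Data d ι) (j : ℕ) : beta D (j + 1) = beta D j + ∑ i, binc D j i := by
  unfold beta
  rw [Finset.mul_sum, Finset.mul_sum, ← Finset.sum_add_distrib, ← Finset.sum_add_distrib,
    ← Finset.sum_add_distrib]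
  refine Finset.sum_congr rfl fun i _ => ?_
  unfold binc
  have hK := K_pos D.P
  split_ifs with h1 h2
  · have e1 : min (j + 1 + 1 - D.J i) (D.P.K + 1) = D.P.K + 1 := by omega
    have e2 : min (j + 1 - D.J i) (D.P.K + 1) = D.P.K + 1 := by omega
    have e3 : j + 1 - D.J i - D.P.K = (j - D.J i - D.P.K) + 1 := by omega
    rw [e1, e2, e3, pow_succ]
    ring
  · have e1 : min (j + 1 + 1 - D.J i) (D.P.K + 1) = min (j + 1 - D.J i) (D.P.K + 1) + 1 := by
      omega
    have e3 : j + 1 - D.J i - D.P.K = 0 := by omega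
    have e4 : j - D.J i - D.P.K = 0 := by omega
    rw [e1, e3, e4]
    push_cast
    ring
  · have e1 : min (j + 1 + 1 - D.J i) (D.P.K + 1) = 0 := by omega
    have e2 : min (j + 1 - D.J i) (D.P.K + 1) = 0 := by omega
    have e3 : j + 1 - D.J i - D.P.K = 0 := by omega
    have e4 : j - D.J i - D.P.K = 0 := by omega
    rw [e1, e2, e3, e4]
    ring

omit [DecidableEq ι] in
theorem beta_le (D : Data d ι) (j : ℕ) :
    beta D j ≤ (2 * C0 + 5) * (D.P.K + 1) * d + d := by
  unfold beta
  have hC := C0_pos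
  have h1 : ∑ i : Fin d, ((min (j + 1 - D.J i) (D.P.K + 1) : ℕ) : ℝ) ≤ (D.P.K + 1) * d := by
    calc ∑ i : Fin d, ((min (j + 1 - D.J i) (D.P.K + 1) : ℕ) : ℝ) ≤
          ∑ _i : Fin d, ((D.P.K : ℝ) + 1) := by
          refine Finset.sum_le_sum fun i _ => ?_
          exact_mod_cast min_le_right _ _
      _ = (D.P.K + 1) * d := by simp; ring
  have h2 : ∑ i : Fin d, (1 - (3 / 4 : ℝ) ^ (j - D.J i - D.P.K)) ≤ d := by
    calc ∑ i : Fin d, (1 - (3 / 4 : ℝ) ^ (j - D.J i - D.P.K)) ≤ ∑ _i : Fin d, (1 : ℝ) := by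
          refine Finset.sum_le_sum fun i _ => ?_
          have : (0 : ℝ) ≤ (3 / 4 : ℝ) ^ (j - D.J i - D.P.K) := by positivity
          linarith
      _ = d := by simp
  have h3 : (2 * C0 + 5) * ∑ i : Fin d, ((min (j + 1 - D.J i) (D.P.K + 1) : ℕ) : ℝ) ≤
      (2 * C0 + 5) * ((D.P.K + 1) * d) := mul_le_mul_of_nonneg_left h1 (by linarith)
  linarith

theorem beta_R (D : Data d ι) (j : ℕ) : 2 * beta D j + 2 * C0 * d ≤ D.P.R ^ 2 := by
  have h1 := beta_le D j
  have h2 := D.P.h9
  linarith

/-- norm bound from the potential -/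
theorem norm_of_Psi (D : Data d ι) (j : ℕ) (x : Fin d → ℝ) (h : Psi D j d x ≤ beta D j) :
    ∑ i, x i ^ 2 ≤ D.P.R ^ 2 := by
  have hC := C0_pos
  have h1 : ∑ i : Fin d, (x i ^ 2 / 2 - C0) ≤ Psi D j d x := by
    unfold Psi
    refine Finset.sum_le_sum fun i _ => ?_
    have h2 := i.2
    have h3 := sq_nonneg (x i)
    split_ifs <;> linarith
  rw [Finset.sum_sub_distrib, Finset.sum_const, ← Finset.sum_div, Finset.card_univ,
    Fintype.card_fin, nsmul_eq_mul] at h1
  have h4 := beta_R D j
  linarith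

/-- coordinate bound for the poor coordinates -/
theorem coord_of_Psi (D : Data d ι) (j : ℕ) (x : Fin d → ℝ) (h : Psi D j 0 x ≤ beta D j)
    (i : Fin d) (hi : D.J i ≤ j) : |x i| ≤ D.P.R := by
  have hC := C0_pos
  have hR := D.P.hR
  have h1 : x i ^ 2 / 2 ≤ Psi D j 0 x := by
    unfold Psi
    have h2 : ∀ k : Fin d, 0 ≤ (if D.J k + D.P.K ≤ j then x k ^ 2 / 2 else
        if D.J k ≤ j then x k ^ 2 else if (k : ℕ) < 0 then x k ^ 2 - C0 else 0) := by
      intro k
      have h3 := sq_nonneg (x k)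
      split_ifs with a1 a2 a3
      · linarith
      · linarith
      · exact absurd a3 (Nat.not_lt_zero _)
      · exact le_rfl
    refine le_trans ?_ (Finset.single_le_sum (fun k _ => h2 k) (Finset.mem_univ i))
    have h3 := sq_nonneg (x i)
    simp only [hi, if_true]
    split_ifs <;> linarith
  have h2 := beta_R D j
  have h3 : (0 : ℝ) ≤ d := Nat.cast_nonneg _
  have h4 : x i ^ 2 ≤ D.P.R ^ 2 := by nlinarith
  exact abs_le_of_sq_le_sq h4 (by linarith)

theorem psi_mid (D : Data d ι) (j k z y : ℕ)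
    (hz : ∀ i : Fin d, D.J i + D.P.K ≤ j ↔ (i : ℕ) < z) (hy : ∀ i : Fin d, D.J i ≤ j ↔ (i : ℕ) < y)
    (a b X c e : Fin d → ℝ) (ha : Psi D j 0 a ≤ beta D j) (hb : Psi D j 0 b ≤ beta D j)
    (hpoor : ∀ i, D.J i + D.P.K ≤ j → |X i - (a i + b i) / 2| * (2 * D.P.R + 1) ≤
      1 / 4 * (3 / 4 : ℝ) ^ (j - D.J i - D.P.K))
    (hint : ∀ i, ¬ D.J i + D.P.K ≤ j → D.J i ≤ j → |X i - (c i + e i)| ≤ 2 ∧
      (¬ D.J i + D.P.K ≤ j + 1 → X i = c i + e i) ∧ |c i - (a i + b i) / 2| * (4 * D.P.R) ≤ 1)
    (hrich : ∀ i, ¬ D.J i ≤ j → X i = e i)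
    (hr1 : (∑ i : Fin d, if z ≤ (i : ℕ) ∧ (i : ℕ) < y then (c i + e i) ^ 2 else 0) ≤
        (∑ i : Fin d, if z ≤ (i : ℕ) ∧ (i : ℕ) < y then c i ^ 2 + C0 else 0))
    (hr2 : ∀ k : ℕ, (∑ i : Fin d, if z ≤ (i : ℕ) ∧ (i : ℕ) < k then e i ^ 2 - C0 else 0) ≤ 0) :
    Psi D (j + 1) k X ≤ beta D (j + 1) := by
  have hC := C0_pos
  have hR := D.P.hR
  have hK := K_pos D.P
  obtain ⟨y', hy'⟩ := exists_thr D.J D.hJ (j + 1)
  have key : ∀ i : Fin d, (if D.J i + D.P.K ≤ j + 1 then X i ^ 2 / 2 else
      if D.J i ≤ j + 1 then X i ^ 2 else if (i : ℕ) < k then X i ^ 2 - C0 else 0) ≤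
      ((if D.J i + D.P.K ≤ j then a i ^ 2 / 2 else
      if D.J i ≤ j then a i ^ 2 else if (i : ℕ) < 0 then a i ^ 2 - C0 else 0) +
      (if D.J i + D.P.K ≤ j then b i ^ 2 / 2 else
      if D.J i ≤ j then b i ^ 2 else if (i : ℕ) < 0 then b i ^ 2 - C0 else 0)) / 2 +
      ((if z ≤ (i : ℕ) ∧ (i : ℕ) < y then (c i + e i) ^ 2 else 0) -
      (if z ≤ (i : ℕ) ∧ (i : ℕ) < y then c i ^ 2 + C0 else 0)) +
      (if z ≤ (i : ℕ) ∧ (i : ℕ) < max k y' then e i ^ 2 - C0 else 0) + binc D j i := by
    intro i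
    have hcA := coord_of_Psi D j a ha i
    have hcB := coord_of_Psi D j b hb i
    by_cases h1 : D.J i + D.P.K ≤ j
    · -- poor
      have h2 : D.J i ≤ j := by omega
      have h3 : D.J i + D.P.K ≤ j + 1 := by omega
      have h4 : ¬ (z ≤ (i : ℕ)) := by rw [not_le]; exact (hz i).1 h1
      have h5 := hpoor i h1
      have h6 := abs_le.1 (hcA h2)
      have h7 := abs_le.1 (hcB h2)
      simp only [h1, h3, h4, if_true, false_and, if_false, binc, sub_self, add_zero]
      set η := X i - (a i + b i) / 2 with hη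
      have hX : X i = (a i + b i) / 2 + η := by rw [hη]; ring
      set μ := (a i + b i) / 2 with hμ
      have hμR : |μ| ≤ D.P.R := by rw [abs_le, hμ]; constructor <;> linarith
      have hη0 := abs_nonneg η
      have hpw : (3 / 4 : ℝ) ^ (j - D.J i - D.P.K) ≤ 1 := pow_le_one₀ (by norm_num) (by norm_num)
      have hη1 : |η| ≤ 1 := by nlinarith
      have h8 : X i ^ 2 ≤ μ ^ 2 + |η| * (2 * D.P.R + 1) := by
        rw [hX]
        have a1 : μ * η ≤ |μ| * |η| := by rw [← abs_mul]; exact le_abs_self _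
        have a2 : η ^ 2 = |η| * |η| := by rw [← sq, sq_abs]
        nlinarith [mul_le_mul_of_nonneg_right hμR hη0, mul_le_mul_of_nonneg_right hη1 hη0]
      have h9 : μ ^ 2 ≤ (a i ^ 2 + b i ^ 2) / 2 := by
        rw [hμ]; nlinarith [sq_nonneg (a i - b i)]
      have hpw0 : (0 : ℝ) ≤ (3 / 4 : ℝ) ^ (j - D.J i - D.P.K) := by positivity
      linarith
    · by_cases h2 : D.J i ≤ j
      · -- intermediate
        obtain ⟨g1, g2, g3⟩ := hint i h1 h2
        have h4 : z ≤ (i : ℕ) := by
          rw [← not_lt, ← hz i]; exact h1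
        have h5 : (i : ℕ) < y := (hy i).1 h2
        have h6 : (i : ℕ) < max k y' := lt_max_of_lt_right ((hy' i).1 (by omega))
        have h6' := abs_le.1 (hcA h2)
        have h7' := abs_le.1 (hcB h2)
        have h8 : D.J i ≤ j + 1 := by omega
        simp only [h1, h2, h4, h5, h6, h8, if_true, and_self, if_false, binc]
        set ξ := c i - (a i + b i) / 2 with hξ
        set μ := (a i + b i) / 2 with hμ
        have hc : c i = μ + ξ := by rw [hξ]; ring
        have hμR : |μ| ≤ D.P.R := by rw [abs_le, hμ]; constructor <;> linarith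
        have hξ0 := abs_nonneg ξ
        have hξ1 : |ξ| ≤ 1 / 4 := by nlinarith
        have h9 : c i ^ 2 ≤ (a i ^ 2 + b i ^ 2) / 2 + 1 := by
          rw [hc]
          have a1 : μ * ξ ≤ |μ| * |ξ| := by rw [← abs_mul]; exact le_abs_self _
          have a2 : ξ ^ 2 = |ξ| * |ξ| := by rw [← sq, sq_abs]
          have a3 : μ ^ 2 ≤ (a i ^ 2 + b i ^ 2) / 2 := by
            rw [hμ]; nlinarith [sq_nonneg (a i - b i)]
          nlinarith [mul_le_mul_of_nonneg_right hμR hξ0, mul_le_mul_of_nonneg_right hξ1 hξ0]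
        have h10 : (if D.J i + D.P.K ≤ j + 1 then X i ^ 2 / 2 else X i ^ 2) ≤
            (c i + e i) ^ 2 + 4 := by
          split_ifs with h11
          · have a1 := abs_le.1 g1
            nlinarith [sq_nonneg (c i + e i - (X i - (c i + e i)))]
          · rw [g2 h11]; linarith
        have h12 := sq_nonneg (e i)
        linarith
      · -- rich
        have hX := hrich i h2
        have h4 : z ≤ (i : ℕ) := by
          rw [← not_lt, ← hz i]; exact h1
        have h5 : ¬ (i : ℕ) < y := fun h => h2 ((hy i).2 h)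
        have h3 : ¬ D.J i + D.P.K ≤ j + 1 := by omega
        simp only [h1, h2, h3, h4, h5, if_true, and_false, true_and, if_false, binc, hX,
          Nat.not_lt_zero, add_zero, zero_div, sub_self, zero_add]
        by_cases h6 : D.J i ≤ j + 1
        · have h7 : (i : ℕ) < max k y' := lt_max_of_lt_right ((hy' i).1 h6)
          simp only [h6, h7, if_true]
          linarith
        · have h7 : (i : ℕ) < max k y' ↔ (i : ℕ) < k := by
            rw [lt_max_iff]
            constructor
            · rintro (h | h)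
              · exact h
              · exact absurd ((hy' i).2 h) h6
            · exact Or.inl
          simp only [h6, h7, if_false]
          split_ifs <;> linarith
  have h1 := Finset.sum_le_sum fun i (_ : i ∈ Finset.univ) => key i
  rw [Finset.sum_add_distrib, Finset.sum_add_distrib, Finset.sum_add_distrib, ← Finset.sum_div,
    Finset.sum_add_distrib, Finset.sum_sub_distrib] at h1
  have h2 := hr2 (max k y')
  rw [beta_succ]
  unfold Psi at ha hb ⊢
  linarith

theorem psi_old (D : Data d ι) (j k : ℕ)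
    (a X : Fin d → ℝ) (ha : ∀ k, Psi D j k a ≤ beta D j)
    (hpoor : ∀ i, D.J i + D.P.K ≤ j → |X i - a i| * (2 * D.P.R + 1) ≤
      1 / 4 * (3 / 4 : ℝ) ^ (j - D.J i - D.P.K))
    (hint : ∀ i, ¬ D.J i + D.P.K ≤ j → D.J i ≤ j → |X i - a i| ≤ 2 ∧
      (¬ D.J i + D.P.K ≤ j + 1 → X i = a i))
    (hrich : ∀ i, ¬ D.J i ≤ j → X i = a i) :
    Psi D (j + 1) k X ≤ beta D (j + 1) := by
  have hC := C0_pos
  have hR := D.P.hR
  have hK := K_pos D.P
  obtain ⟨y', hy'⟩ := exists_thr D.J D.hJ (j + 1)
  have key : ∀ i : Fin d, (if D.J i + D.P.K ≤ j + 1 then X i ^ 2 / 2 else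
      if D.J i ≤ j + 1 then X i ^ 2 else if (i : ℕ) < k then X i ^ 2 - C0 else 0) ≤
      (if D.J i + D.P.K ≤ j then a i ^ 2 / 2 else
      if D.J i ≤ j then a i ^ 2 else if (i : ℕ) < max k y' then a i ^ 2 - C0 else 0) +
        binc D j i := by
    intro i
    have hcA := coord_of_Psi D j a (ha 0) i
    by_cases h1 : D.J i + D.P.K ≤ j
    · -- poor
      have h2 : D.J i ≤ j := by omega
      have h3 : D.J i + D.P.K ≤ j + 1 := by omega
      have h5 := hpoor i h1
      have h6 := hcA h2
      simp only [h1, h3, if_true, binc]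
      set η := X i - a i with hη
      have hX : X i = a i + η := by rw [hη]; ring
      have hη0 := abs_nonneg η
      have hpw : (3 / 4 : ℝ) ^ (j - D.J i - D.P.K) ≤ 1 := pow_le_one₀ (by norm_num) (by norm_num)
      have hη1 : |η| ≤ 1 := by nlinarith
      have h8 : X i ^ 2 ≤ a i ^ 2 + |η| * (2 * D.P.R + 1) := by
        rw [hX]
        have a1 : a i * η ≤ |a i| * |η| := by rw [← abs_mul]; exact le_abs_self _
        have a2 : η ^ 2 = |η| * |η| := by rw [← sq, sq_abs]
        nlinarith [mul_le_mul_of_nonneg_right h6 hη0, mul_le_mul_of_nonneg_right hη1 hη0]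
      have hpw0 : (0 : ℝ) ≤ (3 / 4 : ℝ) ^ (j - D.J i - D.P.K) := by positivity
      linarith
    · by_cases h2 : D.J i ≤ j
      · -- intermediate
        obtain ⟨g1, g2⟩ := hint i h1 h2
        have h8 : D.J i ≤ j + 1 := by omega
        simp only [h1, h2, h8, if_true, if_false, binc]
        split_ifs with h11
        · have a1 := abs_le.1 g1
          nlinarith [sq_nonneg (a i - (X i - a i))]
        · rw [g2 h11]; linarith
      · -- rich
        have hX := hrich i h2
        have h3 : ¬ D.J i + D.P.K ≤ j + 1 := by omega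
        simp only [h1, h2, h3, if_false, binc, hX]
        by_cases h6 : D.J i ≤ j + 1
        · have h7 : (i : ℕ) < max k y' := lt_max_of_lt_right ((hy' i).1 h6)
          simp only [h6, h7, if_true]
          linarith
        · have h7 : (i : ℕ) < max k y' ↔ (i : ℕ) < k := by
            rw [lt_max_iff]
            constructor
            · rintro (h | h)
              · exact h
              · exact absurd ((hy' i).2 h) h6
            · exact Or.inl
          simp only [h6, h7, if_false]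
          split_ifs <;> linarith
  have h1 := Finset.sum_le_sum fun i (_ : i ∈ Finset.univ) => key i
  rw [Finset.sum_add_distrib] at h1
  have h2 := ha (max k y')
  rw [beta_succ]
  unfold Psi at h2 ⊢
  linarith

end P262
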