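import Vale.Agent.P262.Moves

/-!
# P262: the rounding lemma
-/

namespace P262

/-- The constant of the rounding lemma. -/
noncomputable def C0 : ℝ := 3000

section system

variable {κ : Type*} [Fintype κ] [DecidableEq κ] {d : ℕ}

theorem bessel_bound (u : κ → Fin d → ℝ) (hu : ∀ l, ∑ i, u l i ^ 2 ≤ 1) (F : Finset κ) {s : ℕ}
    (b : Fin s → EuclideanSpace ℝ κ) (hb : Orthonormal ℝ b) (hbF : ∀ k, ∀ l ∉ F, b k l = 0) :
    ∑ k, ∑ i, (∑ l, b k l * u l i) ^ 2 ≤ F.card := by
  have h1 : ∀ i : Fin d, ∑ k, (∑ l, b k l * u l i) ^ 2 ≤ ∑ l ∈ F, u l i ^ 2 := by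
    intro i
    set g : EuclideanSpace ℝ κ := WithLp.toLp 2 (fun l => if l ∈ F then u l i else 0) with hg
    have h2 := hb.sum_inner_products_le g (s := Finset.univ)
    have h3 : ‖g‖ ^ 2 = ∑ l ∈ F, u l i ^ 2 := by
      rw [EuclideanSpace.norm_sq_eq]
      simp only [hg, Real.norm_eq_abs, sq_abs, ite_pow, ne_eq, OfNat.ofNat_ne_zero,
        not_false_eq_true, zero_pow]
      rw [← Finset.sum_filter]
      simp
    rw [h3] at h2
    refine le_trans (le_of_eq ?_) h2
    refine Finset.sum_congr rfl fun k _ => ?_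
    rw [Real.norm_eq_abs, sq_abs]
    congr 1
    rw [PiLp.inner_apply]
    refine Finset.sum_congr rfl fun l _ => ?_
    simp only [hg, RCLike.inner_apply, conj_trivial]
    by_cases hl : l ∈ F
    · simp [hl, mul_comm]
    · simp [hl, hbF k l hl]
  calc ∑ k, ∑ i, (∑ l, b k l * u l i) ^ 2 = ∑ i, ∑ k, (∑ l, b k l * u l i) ^ 2 :=
        Finset.sum_comm
    _ ≤ ∑ i, ∑ l ∈ F, u l i ^ 2 := Finset.sum_le_sum fun i _ => h1 i
    _ = ∑ l ∈ F, ∑ i, u l i ^ 2 := Finset.sum_comm
    _ ≤ ∑ l ∈ F, 1 := Finset.sum_le_sum fun l _ => hu l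
    _ = F.card := by simp

theorem exists_system (u : κ → Fin d → ℝ) (hu : ∀ l, ∑ i, u l i ^ 2 ≤ 1) (F : Finset κ)
    (hF : 0 < F.card) : ∃ s : ℕ, 4 * s < F.card ∧ ∃ b : Fin s → κ → ℝ,
      ∀ h : κ → ℝ, (∀ l ∉ F, h l = 0) → (∀ k, ∑ l, b k l * h l = 0) →
        ∑ i, (∑ l, h l * u l i) ^ 2 ≤ 4 * ∑ l, h l ^ 2 := by
  let P : ℕ → Prop := fun s => ∃ b : Fin s → EuclideanSpace ℝ κ, Orthonormal ℝ b ∧
    (∀ k, ∀ l ∉ F, b k l = 0) ∧ ∀ k, 4 < ∑ i, (∑ l, b k l * u l i) ^ 2
  have hbound : ∀ s, P s → 4 * s < F.card := by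
    rintro s ⟨b, hb, hbF, hb4⟩
    rcases Nat.eq_zero_or_pos s with rfl | hs
    · simpa using hF
    have h1 := bessel_bound u hu F b hb hbF
    have h2 : (4 * s : ℝ) < ∑ k, ∑ i, (∑ l, b k l * u l i) ^ 2 := by
      have : (4 * s : ℝ) = ∑ _k : Fin s, (4 : ℝ) := by simp [mul_comm]
      rw [this]
      have : Nonempty (Fin s) := ⟨⟨0, hs⟩⟩
      exact Finset.sum_lt_sum_of_nonempty Finset.univ_nonempty fun k _ => hb4 k
    exact_mod_cast lt_of_lt_of_le h2 h1
  classical
  have hP0 : P 0 := ⟨fun k => 0, ⟨fun k => k.elim0, fun k => k.elim0⟩, fun k => k.elim0,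
    fun k => k.elim0⟩
  set s := Nat.findGreatest P F.card with hs
  have hPs : P s := Nat.findGreatest_spec (m := 0) (Nat.zero_le _) hP0
  have hPs1 : ¬ P (s + 1) := by
    intro h
    have h1 := hbound _ h
    have h2 := Nat.le_findGreatest (P := P) (by omega : s + 1 ≤ F.card) h
    omega
  obtain ⟨b, hb, hbF, hb4⟩ := hPs
  refine ⟨s, hbound s ⟨b, hb, hbF, hb4⟩, fun k l => b k l, fun h hh hbh => ?_⟩
  by_contra hcon
  push Not at hcon
  apply hPs1
  have hsum0 : 0 < ∑ l, h l ^ 2 := by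
    by_contra h0
    have h0' : ∑ l, h l ^ 2 = 0 := le_antisymm (not_lt.1 h0) (Finset.sum_nonneg fun l _ => sq_nonneg _)
    have h1 : ∀ l, h l = 0 := by
      intro l
      have := (Finset.sum_eq_zero_iff_of_nonneg (fun l _ => sq_nonneg (h l))).1 h0' l
        (Finset.mem_univ l)
      exact pow_eq_zero_iff (two_ne_zero) |>.1 this
    simp [h1] at hcon
  set ρ := Real.sqrt (∑ l, h l ^ 2) with hρ
  have hρ0 : 0 < ρ := Real.sqrt_pos.2 hsum0
  have hρ2 : ρ ^ 2 = ∑ l, h l ^ 2 := Real.sq_sqrt hsum0.le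
  let h' : EuclideanSpace ℝ κ := WithLp.toLp 2 (fun l => h l / ρ)
  have hh' : ∀ l, h' l = h l / ρ := fun l => rfl
  refine ⟨Fin.cons h' b, ?_, ?_, ?_⟩
  · rw [orthonormal_iff_ite]
    have hbb := orthonormal_iff_ite.1 hb
    have hself : inner ℝ h' h' = (1 : ℝ) := by
      rw [PiLp.inner_apply]
      simp only [hh', RCLike.inner_apply, conj_trivial]
      have : ∀ l, h l / ρ * (h l / ρ) = h l ^ 2 / ρ ^ 2 := fun l => by
        field_simp
      simp_rw [this]
      rw [← Finset.sum_div, ← hρ2, div_self (by positivity)]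
    have horth : ∀ k, inner ℝ h' (b k) = (0 : ℝ) := by
      intro k
      rw [PiLp.inner_apply]
      simp only [hh', RCLike.inner_apply, conj_trivial]
      have : ∀ l, b k l * (h l / ρ) = (b k l * h l) / ρ := fun l => by ring
      simp_rw [this]
      rw [← Finset.sum_div, hbh k, zero_div]
    intro i j
    refine Fin.cases ?_ (fun i' => ?_) i <;> refine Fin.cases ?_ (fun j' => ?_) j
    · simpa using hself
    · rw [Fin.cons_zero, Fin.cons_succ, horth, if_neg (Fin.succ_ne_zero j').symm]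
    · rw [Fin.cons_zero, Fin.cons_succ, real_inner_comm, horth, if_neg (Fin.succ_ne_zero i')]
    · rw [Fin.cons_succ, Fin.cons_succ, hbb]
      simp only [Fin.succ_inj]
  · intro k l hl
    refine Fin.cases ?_ (fun k' => ?_) k
    · rw [Fin.cons_zero, hh', hh l hl, zero_div]
    · rw [Fin.cons_succ]
      exact hbF k' l hl
  · intro k
    refine Fin.cases ?_ (fun k' => ?_) k
    · rw [Fin.cons_zero]
      have e1 : ∀ i, ∑ l, h' l * u l i = (∑ l, h l * u l i) / ρ := by
        intro i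
        rw [Finset.sum_div]
        refine Finset.sum_congr rfl fun l _ => ?_
        rw [hh']
        ring
      simp_rw [e1, div_pow]
      rw [← Finset.sum_div, lt_div_iff₀ (by positivity), hρ2]
      exact hcon
    · rw [Fin.cons_succ]
      exact hb4 k'

end system

section rounding

variable {κ : Type*} [Fintype κ] [DecidableEq κ] {d : ℕ}

/-- Greedy rounding. -/
theorem greedy_round (u : κ → Fin d → ℝ) (hu : ∀ l, ∑ i, u l i ^ 2 ≤ 1) (I : Finset (Fin d))
    (x : κ → ℝ) (hx : ∀ l, |x l| ≤ 1) (c : Fin d → ℝ) :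
    ∃ ε : κ → ℝ, (∀ l, ε l = 1 ∨ ε l = -1) ∧ (∀ l, |x l| = 1 → ε l = x l) ∧
      ∑ i ∈ I, (c i + ∑ l, (ε l - x l) * u l i) ^ 2 ≤
        ∑ i ∈ I, c i ^ 2 + 4 * (Finset.univ.filter fun l => |x l| < 1).card := by
  induction hn : (Finset.univ.filter fun l => |x l| < 1).card using Nat.strong_induction_on
    generalizing x c with
  | _ n ih =>
  subst hn
  by_cases hne : (Finset.univ.filter fun l => |x l| < 1).Nonempty
  · obtain ⟨l₀, hl₀⟩ := hne
    have hl₀' : |x l₀| < 1 := (Finset.mem_filter.1 hl₀).2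
    -- the step
    obtain ⟨δ, hδ1, hδ2, hδ3⟩ : ∃ δ : ℝ, |x l₀ + δ| = 1 ∧ |δ| ≤ 2 ∧
        δ * ∑ i ∈ I, c i * u l₀ i ≤ 0 := by
      have h1 := abs_lt.1 hl₀'
      rcases le_total (∑ i ∈ I, c i * u l₀ i) 0 with h2 | h2
      · refine ⟨1 - x l₀, by simp, ?_, ?_⟩
        · rw [abs_le]; constructor <;> linarith
        · exact mul_nonpos_of_nonneg_of_nonpos (by linarith) h2
      · refine ⟨-1 - x l₀, by simp, ?_, ?_⟩
        · rw [abs_le]; constructor <;> linarith
        · exact mul_nonpos_of_nonpos_of_nonneg (by linarith) h2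
    set x₁ : κ → ℝ := Function.update x l₀ (x l₀ + δ) with hx₁
    have hx₁l : x₁ l₀ = x l₀ + δ := by simp [hx₁]
    have hx₁n : ∀ l, l ≠ l₀ → x₁ l = x l := fun l hl => by simp [hx₁, hl]
    have hx₁le : ∀ l, |x₁ l| ≤ 1 := by
      intro l
      by_cases hl : l = l₀
      · rw [hl, hx₁l, hδ1]
      · rw [hx₁n l hl]
        exact hx l
    have hset : (Finset.univ.filter fun l => |x₁ l| < 1) =
        (Finset.univ.filter fun l => |x l| < 1).erase l₀ := by
      ext l
      simp only [Finset.mem_filter, Finset.mem_univ, true_and, Finset.mem_erase]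
      by_cases hl : l = l₀
      · rw [hl, hx₁l, hδ1]
        simp
      · rw [hx₁n l hl]
        simp [hl]
    have hcard : (Finset.univ.filter fun l => |x₁ l| < 1).card + 1 =
        (Finset.univ.filter fun l => |x l| < 1).card := by
      rw [hset]
      exact Finset.card_erase_add_one hl₀
    obtain ⟨ε, h1, h2, h3⟩ := ih _ (by omega) x₁ hx₁le (fun i => c i + δ * u l₀ i) rfl
    refine ⟨ε, h1, fun l hl => ?_, ?_⟩
    · have hl' : l ≠ l₀ := fun h => by
        rw [h] at hl
        exact absurd hl hl₀'.ne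
      rw [h2 l (by rw [hx₁n l hl']; exact hl), hx₁n l hl']
    · have e1 : ∀ i, c i + ∑ l, (ε l - x l) * u l i =
          (c i + δ * u l₀ i) + ∑ l, (ε l - x₁ l) * u l i := by
        intro i
        have e2 : ∑ l, (ε l - x l) * u l i - ∑ l, (ε l - x₁ l) * u l i = δ * u l₀ i := by
          rw [← Finset.sum_sub_distrib, Finset.sum_eq_single l₀]
          · rw [hx₁l]; ring
          · intro l _ hl
            rw [hx₁n l hl]; ring
          · intro h; exact absurd (Finset.mem_univ _) h
        linarith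
      simp_rw [e1]
      refine h3.trans ?_
      have e3 : ∑ i ∈ I, (c i + δ * u l₀ i) ^ 2 = ∑ i ∈ I, c i ^ 2 +
          2 * (δ * ∑ i ∈ I, c i * u l₀ i) + δ ^ 2 * ∑ i ∈ I, u l₀ i ^ 2 := by
        simp_rw [Finset.mul_sum]
        rw [← Finset.sum_add_distrib, ← Finset.sum_add_distrib]
        refine Finset.sum_congr rfl fun i _ => ?_
        ring
      have e4 : ∑ i ∈ I, u l₀ i ^ 2 ≤ 1 :=
        (Finset.sum_le_univ_sum_of_nonneg fun i => sq_nonneg _).trans (hu l₀)
      have e5 : δ ^ 2 ≤ 4 := by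
        have := sq_le_sq' (abs_le.1 hδ2).1 (abs_le.1 hδ2).2
        linarith
      have e6 : 0 ≤ ∑ i ∈ I, u l₀ i ^ 2 := Finset.sum_nonneg fun i _ => sq_nonneg _
      have e7 : (((Finset.univ.filter fun l => |x l| < 1).card : ℕ) : ℝ) =
          ((Finset.univ.filter fun l => |x₁ l| < 1).card : ℕ) + 1 := by
        rw [← hcard]; push_cast; ring
      rw [e3, e7]
      nlinarith [mul_le_mul e5 e4 e6 (by norm_num : (0:ℝ) ≤ 4)]
  · rw [Finset.not_nonempty_iff_eq_empty] at hne
    have h1 : ∀ l, |x l| = 1 := by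
      intro l
      rcases lt_or_eq_of_le (hx l) with h | h
      · have : l ∈ (Finset.univ.filter fun l => |x l| < 1) := by simp [h]
        rw [hne] at this
        exact absurd this (Finset.notMem_empty _)
      · exact h
    refine ⟨x, fun l => ?_, fun _ _ => rfl, ?_⟩
    · have h2 := h1 l
      rcases abs_cases (x l) with h3 | h3
      · left; linarith [h3.1]
      · right; linarith [h3.1]
    · simp

omit [DecidableEq κ] in
/-- any rounding that moves only `n` coordinates moves the sum by at most `2 n`. -/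
theorem crude_bound (u : κ → Fin d → ℝ) (hu : ∀ l, ∑ i, u l i ^ 2 ≤ 1) (F : Finset κ)
    (δ : κ → ℝ) (hδ : ∀ l, |δ l| ≤ 2) (hδF : ∀ l ∉ F, δ l = 0) (I : Finset (Fin d)) :
    ∑ i ∈ I, (∑ l, δ l * u l i) ^ 2 ≤ 4 * (F.card : ℝ) ^ 2 := by
  have h1 : ∀ i, (∑ l, δ l * u l i) ^ 2 ≤ F.card * ∑ l ∈ F, (δ l * u l i) ^ 2 := by
    intro i
    have : ∑ l, δ l * u l i = ∑ l ∈ F, δ l * u l i := by
      symm
      refine Finset.sum_subset (Finset.subset_univ _) fun l _ hl => ?_
      rw [hδF l hl, zero_mul]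
    rw [this]
    exact sq_sum_le_card_mul_sum_sq
  have hδ2 : ∀ l, δ l ^ 2 ≤ 4 := fun l => by
    have := sq_le_sq' (abs_le.1 (hδ l)).1 (abs_le.1 (hδ l)).2
    linarith
  calc ∑ i ∈ I, (∑ l, δ l * u l i) ^ 2 ≤ ∑ i, (∑ l, δ l * u l i) ^ 2 :=
        Finset.sum_le_univ_sum_of_nonneg fun i => sq_nonneg _
    _ ≤ ∑ i, F.card * ∑ l ∈ F, (δ l * u l i) ^ 2 := Finset.sum_le_sum fun i _ => h1 i
    _ = F.card * ∑ l ∈ F, δ l ^ 2 * ∑ i, u l i ^ 2 := by
        rw [← Finset.mul_sum, Finset.sum_comm]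
        congr 1
        refine Finset.sum_congr rfl fun l _ => ?_
        rw [Finset.mul_sum]
        refine Finset.sum_congr rfl fun i _ => ?_
        ring
    _ ≤ F.card * ∑ l ∈ F, 4 := by
        refine mul_le_mul_of_nonneg_left (Finset.sum_le_sum fun l _ => ?_) (Nat.cast_nonneg _)
        have h2 : 0 ≤ ∑ i, u l i ^ 2 := Finset.sum_nonneg fun i _ => sq_nonneg _
        nlinarith [hδ2 l, hu l, sq_nonneg (δ l)]
    _ = 4 * (F.card : ℝ) ^ 2 := by
        rw [Finset.sum_const, nsmul_eq_mul]; ring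

/-- the bound function -/
def mu (n N : ℕ) : ℕ := if N = 0 then 0 else min n (4 * N + 4)

theorem mu_mono {n n' : ℕ} (h : n' ≤ n) (N : ℕ) : mu n' N ≤ mu n N := by
  unfold mu
  split_ifs
  · exact le_rfl
  · exact min_le_min_right _ h

/-- the coordinates in the window -/
def win (d z y : ℕ) : Finset (Fin d) := Finset.univ.filter fun i => z ≤ (i : ℕ) ∧ (i : ℕ) < y

theorem mem_win {d z y : ℕ} {i : Fin d} : i ∈ win d z y ↔ z ≤ (i : ℕ) ∧ (i : ℕ) < y := by
  simp [win]

/-- if `z + a ≤ y` and `i` is not among the first `a` coordinates then `a < card` -/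
theorem card_win_gt {d z y a : ℕ} {i : Fin d} (hi : i ∈ win d z y) (ha : z + a ≤ i) :
    a < (win d z y).card := by
  rw [mem_win] at hi
  have h1 : (Finset.Icc z (i : ℕ)).card ≤ (win d z y).card := by
    refine Finset.card_le_card_of_injOn (fun k => if hk : k < d then ⟨k, hk⟩ else i) ?_ ?_
    · intro k hk
      rw [Finset.coe_Icc, Set.mem_Icc] at hk
      have hkd : k < d := lt_of_le_of_lt hk.2 i.2
      simp only [hkd, dif_pos, Finset.mem_coe, mem_win]
      exact ⟨hk.1, lt_of_le_of_lt hk.2 hi.2⟩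
    · intro k hk k' hk' h
      rw [Finset.coe_Icc, Set.mem_Icc] at hk hk'
      have hkd : k < d := lt_of_le_of_lt hk.2 i.2
      have hkd' : k' < d := lt_of_le_of_lt hk'.2 i.2
      simp only [hkd, hkd', dif_pos, Fin.mk.injEq] at h
      exact h
  rw [Nat.card_Icc] at h1
  omega

/-- the linear map with the given matrix -/
def lin {α : Type*} (w : α → κ → ℝ) : (κ → ℝ) →ₗ[ℝ] (α → ℝ) where
  toFun h j := ∑ l, w j l * h l
  map_add' a b := by
    funext j
    simp [mul_add, Finset.sum_add_distrib]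
  map_smul' t a := by
    funext j
    simp only [Pi.smul_apply, smul_eq_mul, RingHom.id_apply, Finset.mul_sum]
    refine Finset.sum_congr rfl fun l _ => ?_
    ring

omit [DecidableEq κ] in
theorem lin_apply {α : Type*} (w : α → κ → ℝ) (h : κ → ℝ) (j : α) :
    lin w h j = ∑ l, w j l * h l := rfl

theorem stage (u : κ → Fin d → ℝ) (hu : ∀ l, ∑ i, u l i ^ 2 ≤ 1) (z y : ℕ)
    (x : κ → ℝ) (hx : ∀ l, |x l| ≤ 1) (c : Fin d → ℝ)
    (hn : 8 ≤ (Finset.univ.filter fun l => |x l| < 1).card) :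
    ∃ x' : κ → ℝ, (∀ l, |x' l| ≤ 1) ∧ (∀ l, |x l| = 1 → x' l = x l) ∧
      8 * (Finset.univ.filter fun l => |x' l| < 1).card ≤
        5 * (Finset.univ.filter fun l => |x l| < 1).card ∧
      (∀ i : Fin d, z ≤ (i : ℕ) → (i : ℕ) < z + (Finset.univ.filter fun l => |x l| < 1).card / 4 →
        ∑ l, (x' l - x l) * u l i = 0) ∧
      (∀ I : Finset (Fin d), ∑ i ∈ I, (∑ l, (x' l - x l) * u l i) ^ 2 ≤
        16 * (Finset.univ.filter fun l => |x l| < 1).card) ∧
      ∑ i ∈ win d z y, (c i + ∑ l, (x' l - x l) * u l i) ^ 2 ≤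
        ∑ i ∈ win d z y, c i ^ 2 + 4 * (Finset.univ.filter fun l => |x l| < 1).card := by
  set F := Finset.univ.filter fun l => |x l| < 1 with hF
  set n := F.card with hn'
  obtain ⟨s, hs, b, hb⟩ := exists_system u hu F (by omega)
  -- the constraints
  obtain ⟨w, hw1, hw2⟩ : ∃ w : Fin (n / 4 + s) → κ → ℝ,
      (∀ j : Fin (n / 4 + s), (j : ℕ) < n / 4 → ∀ hz : z + (j : ℕ) < d, ∀ l,
        w j l = u l ⟨z + j, hz⟩) ∧
      (∀ k : Fin s, ∀ l, w ⟨n / 4 + k, by omega⟩ l = b k l) := by
    refine ⟨fun j l => if hj : (j : ℕ) < n / 4 then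
      (if hz : z + j < d then u l ⟨z + j, hz⟩ else 0) else
      b ⟨(j : ℕ) - n / 4, by omega⟩ l, ?_, ?_⟩
    · intro j hj hz l
      simp [hj, hz]
    · intro k l
      simp
  obtain ⟨Um, hUmd⟩ : ∃ Um : Fin d → κ → ℝ, ∀ i l, Um i l = if i ∈ win d z y then u l i else 0 :=
    ⟨_, fun _ _ => rfl⟩
  have hFout : ∀ l, l ∉ F → |x l| = 1 := by
    intro l hl
    rcases lt_or_eq_of_le (hx l) with h | h
    · exact absurd (by simp [hF, h]) hl
    · exact h
  have hker : ∀ h : κ → ℝ, (∀ l, |x l| = 1 → h l = 0) → lin w h = 0 →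
      ∑ i, (∑ l, h l * u l i) ^ 2 ≤ 4 * ∑ l, h l ^ 2 := by
    intro h hh hw
    refine hb h (fun l hl => hh l (hFout l hl)) fun k => ?_
    have h1 := congrFun hw ⟨n / 4 + k, by omega⟩
    rw [lin_apply] at h1
    simp_rw [hw2] at h1
    exact h1
  have hUm : ∀ h : κ → ℝ, ∀ i, lin Um h i = if i ∈ win d z y then ∑ l, h l * u l i else 0 := by
    intro h i
    rw [lin_apply]
    simp_rw [hUmd]
    split_ifs with h1
    · exact Finset.sum_congr rfl fun l _ => mul_comm _ _
    · simp
  obtain ⟨x', h1, h2, h3, h4, h5⟩ := moves (r := n / 4 + s) (lin w) (lin Um) 4 x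
    (fun h hh hw => by
      refine le_trans (Finset.sum_le_sum fun i _ => ?_) (hker h hh hw)
      rw [hUm]
      split_ifs
      · exact le_rfl
      · rw [zero_pow two_ne_zero]
        exact sq_nonneg _) (fun i => if i ∈ win d z y then c i else 0) hx
  have hdiff : lin w (x' - x) = 0 := by rw [map_sub, h3, sub_self]
  have hd0 : ∀ l, |x l| = 1 → (x' - x) l = 0 := fun l hl => by
    simp [h2 l hl]
  have hsq : ∑ l, (x' - x) l ^ 2 ≤ 4 * n := by
    have e1 : ∑ l, (x' - x) l ^ 2 = ∑ l ∈ F, (x' - x) l ^ 2 := by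
      symm
      refine Finset.sum_subset (Finset.subset_univ _) fun l _ hl => ?_
      rw [hd0 l (hFout l hl)]
      ring
    rw [e1]
    refine (Finset.sum_le_card_nsmul F _ 4 fun l _ => ?_).trans (le_of_eq ?_)
    · have a1 := abs_le.1 (h1 l)
      have a2 := abs_le.1 (hx l)
      simp only [Pi.sub_apply]
      nlinarith
    · rw [nsmul_eq_mul]; ring
  refine ⟨x', h1, h2, by omega, ?_, ?_, ?_⟩
  · intro i hi1 hi2
    have h6 := congrFun hdiff ⟨(i : ℕ) - z, by omega⟩
    rw [lin_apply] at h6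
    have h7 : (i : ℕ) - z < n / 4 := by omega
    have h8 : z + ((i : ℕ) - z) < d := by have := i.2; omega
    have h9 : (⟨z + ((i : ℕ) - z), h8⟩ : Fin d) = i := Fin.ext (by simp; omega)
    have h10 : ∀ l, w ⟨(i : ℕ) - z, by omega⟩ l = u l i := fun l => by
      rw [hw1 ⟨(i : ℕ) - z, by omega⟩ h7 h8 l, h9]
    simp_rw [h10] at h6
    simp only [Pi.sub_apply, Pi.zero_apply] at h6
    rw [← h6]
    exact Finset.sum_congr rfl fun l _ => mul_comm _ _
  · intro I
    refine (Finset.sum_le_univ_sum_of_nonneg fun i => sq_nonneg _).trans ?_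
    have h6 := hker (x' - x) hd0 hdiff
    simp only [Pi.sub_apply] at h6 hsq
    linarith
  · have h6 : ∑ i ∈ win d z y, (c i + ∑ l, (x' l - x l) * u l i) ^ 2 =
        ∑ i, ((if i ∈ win d z y then c i else 0) + lin Um x' i - lin Um x i) ^ 2 := by
      rw [← Finset.sum_filter_add_sum_filter_not Finset.univ (fun i => i ∈ win d z y)
        (fun i => ((if i ∈ win d z y then c i else 0) + lin Um x' i -
          lin Um x i) ^ 2)]
      have e1 : Finset.univ.filter (fun i => i ∈ win d z y) = win d z y := by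
        ext i; simp
      rw [e1]
      have e2 : ∑ i ∈ Finset.univ.filter (fun i => i ∉ win d z y),
          ((if i ∈ win d z y then c i else 0) + lin Um x' i - lin Um x i) ^ 2 = 0 := by
        refine Finset.sum_eq_zero fun i hi => ?_
        rw [Finset.mem_filter] at hi
        rw [hUm, hUm, if_neg hi.2, if_neg hi.2, if_neg hi.2]
        ring
      rw [e2, add_zero]
      refine Finset.sum_congr rfl fun i hi => ?_
      rw [hUm, hUm, if_pos hi, if_pos hi, if_pos hi]
      simp_rw [sub_mul]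
      rw [Finset.sum_sub_distrib]
      ring
    have h7 : ∑ i, (if i ∈ win d z y then c i else 0) ^ 2 = ∑ i ∈ win d z y, c i ^ 2 := by
      simp only [ite_pow, ne_eq, OfNat.ofNat_ne_zero, not_false_eq_true, zero_pow]
      rw [← Finset.sum_filter]
      congr 1
      ext i; simp
    rw [h6]
    refine h5.trans ?_
    rw [h7]
    have h8 : ∑ l, x' l ^ 2 - ∑ l, x l ^ 2 ≤ n := by
      rw [← Finset.sum_sub_distrib]
      have e1 : ∑ l, (x' l ^ 2 - x l ^ 2) = ∑ l ∈ F, (x' l ^ 2 - x l ^ 2) := by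
        symm
        refine Finset.sum_subset (Finset.subset_univ _) fun l _ hl => ?_
        rw [h2 l (hFout l hl)]
        ring
      rw [e1]
      refine (Finset.sum_le_card_nsmul F _ 1 fun l _ => ?_).trans (le_of_eq ?_)
      · have a1 := sq_le_one_iff_abs_le_one (x' l) |>.2 (h1 l)
        nlinarith [sq_nonneg (x l)]
      · rw [nsmul_eq_mul]; ring
    linarith

theorem round_aux (u : κ → Fin d → ℝ) (hu : ∀ l, ∑ i, u l i ^ 2 ≤ 1) (z y : ℕ)
    (x : κ → ℝ) (hx : ∀ l, |x l| ≤ 1) (c : Fin d → ℝ) :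
    ∃ ε : κ → ℝ, (∀ l, ε l = 1 ∨ ε l = -1) ∧ (∀ l, |x l| = 1 → ε l = x l) ∧
      ∑ i ∈ win d z y, (c i + ∑ l, (ε l - x l) * u l i) ^ 2 ≤
        ∑ i ∈ win d z y, c i ^ 2 +
          11 * mu (Finset.univ.filter fun l => |x l| < 1).card (win d z y).card ∧
      ∀ k : ℕ, ∑ i ∈ win d z k, (∑ l, (ε l - x l) * u l i) ^ 2 ≤
        366 * mu (Finset.univ.filter fun l => |x l| < 1).card (win d z k).card := by
  induction hn : (Finset.univ.filter fun l => |x l| < 1).card using Nat.strong_induction_on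
    generalizing x c with
  | _ n ih =>
  subst hn
  set F := Finset.univ.filter fun l => |x l| < 1 with hF
  have hFout : ∀ l, l ∉ F → |x l| = 1 := by
    intro l hl
    rcases lt_or_eq_of_le (hx l) with h | h
    · exact absurd (by simp [hF, h]) hl
    · exact h
  by_cases hn8 : F.card < 8
  · obtain ⟨ε, h1, h2, h3⟩ := greedy_round u hu (win d z y) x hx c
    refine ⟨ε, h1, h2, ?_, ?_⟩
    · by_cases hw0 : (win d z y).card = 0
      · rw [Finset.card_eq_zero.1 hw0]
        simp [mu]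
      refine h3.trans ?_
      unfold mu
      rw [if_neg hw0]
      have : min F.card (4 * (win d z y).card + 4) = F.card := by
        apply min_eq_left
        omega
      rw [this]
      have : (0 : ℝ) ≤ F.card := Nat.cast_nonneg _
      linarith
    · intro k
      by_cases hw0 : (win d z k).card = 0
      · rw [Finset.card_eq_zero.1 hw0]
        simp [mu]
      refine (crude_bound u hu F (fun l => ε l - x l) (fun l => ?_) (fun l hl => ?_) _).trans ?_
      · have a1 := abs_le.1 (hx l)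
        rcases h1 l with h | h <;> rw [h, abs_le] <;> constructor <;> linarith
      · rw [h2 l (hFout l hl), sub_self]
      · unfold mu
        rw [if_neg hw0]
        have : min F.card (4 * (win d z k).card + 4) = F.card := by
          apply min_eq_left
          omega
        rw [this]
        have h5 : (0 : ℝ) ≤ F.card := Nat.cast_nonneg _
        have h6 : (F.card : ℝ) ≤ 7 := by exact_mod_cast (by omega : F.card ≤ 7)
        nlinarith
  · push Not at hn8
    obtain ⟨x', h1, h2, h3, h4, h5, h6⟩ := stage u hu z y x hx c hn8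
    rw [← hF] at h3 h4 h5 h6
    obtain ⟨ε, g1, g2, g3, g4⟩ := ih (Finset.univ.filter fun l => |x' l| < 1).card (by omega) x' h1
      (fun i => c i + ∑ l, (x' l - x l) * u l i) rfl
    set n' := (Finset.univ.filter fun l => |x' l| < 1).card with hn'
    have h3' : (8 : ℝ) * n' ≤ 5 * F.card := by exact_mod_cast h3
    have hFn : (0 : ℝ) ≤ F.card := Nat.cast_nonneg _
    have hsplit : ∀ i, ∑ l, (ε l - x l) * u l i =
        ∑ l, (x' l - x l) * u l i + ∑ l, (ε l - x' l) * u l i := by
      intro i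
      rw [← Finset.sum_add_distrib]
      exact Finset.sum_congr rfl fun l _ => by ring
    have hle : n' ≤ F.card := by omega
    refine ⟨ε, g1, fun l hl => ?_, ?_, ?_⟩
    · rw [g2 l (by rw [h2 l hl]; exact hl), h2 l hl]
    · have e1 : ∀ i, c i + ∑ l, (ε l - x l) * u l i =
          (c i + ∑ l, (x' l - x l) * u l i) + ∑ l, (ε l - x' l) * u l i := by
        intro i
        rw [hsplit i]
        ring
      simp_rw [e1]
      refine g3.trans ?_
      by_cases hw0 : (win d z y).card = 0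
      · rw [Finset.card_eq_zero.1 hw0]
        simp [mu]
      by_cases ha : F.card / 4 < (win d z y).card
      · have hm : mu F.card (win d z y).card = F.card := by
          unfold mu
          rw [if_neg hw0]
          apply min_eq_left
          omega
        have hm' : (mu n' (win d z y).card : ℝ) ≤ n' := by
          unfold mu
          rw [if_neg hw0]
          exact_mod_cast min_le_left _ _
        rw [hm]
        linarith
      · have e2 : ∑ i ∈ win d z y, (c i + ∑ l, (x' l - x l) * u l i) ^ 2 =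
            ∑ i ∈ win d z y, c i ^ 2 := by
          refine Finset.sum_congr rfl fun i hi => ?_
          rw [h4 i (mem_win.1 hi).1 ?_, add_zero]
          by_contra hcon
          exact ha (card_win_gt hi (not_lt.1 hcon))
        rw [e2]
        have : (mu n' (win d z y).card : ℝ) ≤ mu F.card (win d z y).card := by
          exact_mod_cast mu_mono hle _
        linarith
    · intro k
      by_cases hw0 : (win d z k).card = 0
      · rw [Finset.card_eq_zero.1 hw0]
        simp [mu]
      by_cases ha : F.card / 4 < (win d z k).card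
      · have hm : mu F.card (win d z k).card = F.card := by
          unfold mu
          rw [if_neg hw0]
          apply min_eq_left
          omega
        have hm' : (mu n' (win d z k).card : ℝ) ≤ n' := by
          unfold mu
          rw [if_neg hw0]
          exact_mod_cast min_le_left _ _
        rw [hm]
        have e1 : ∑ i ∈ win d z k, (∑ l, (ε l - x l) * u l i) ^ 2 ≤
            5 * ∑ i ∈ win d z k, (∑ l, (x' l - x l) * u l i) ^ 2 +
            5 / 4 * ∑ i ∈ win d z k, (∑ l, (ε l - x' l) * u l i) ^ 2 := by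
          rw [Finset.mul_sum, Finset.mul_sum, ← Finset.sum_add_distrib]
          refine Finset.sum_le_sum fun i _ => ?_
          rw [hsplit i]
          nlinarith [sq_nonneg (4 * (∑ l, (x' l - x l) * u l i) - ∑ l, (ε l - x' l) * u l i)]
        have e2 := h5 (win d z k)
        have e3 := g4 k
        nlinarith
      · have e2 : ∑ i ∈ win d z k, (∑ l, (ε l - x l) * u l i) ^ 2 =
            ∑ i ∈ win d z k, (∑ l, (ε l - x' l) * u l i) ^ 2 := by
          refine Finset.sum_congr rfl fun i hi => ?_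
          rw [hsplit i, h4 i (mem_win.1 hi).1 ?_, zero_add]
          by_contra hcon
          exact ha (card_win_gt hi (not_lt.1 hcon))
        rw [e2]
        refine (g4 k).trans ?_
        have : (mu n' (win d z k).card : ℝ) ≤ mu F.card (win d z k).card := by
          exact_mod_cast mu_mono hle _
        linarith

theorem mu_le (n N : ℕ) : mu n N ≤ 8 * N := by
  unfold mu
  split_ifs with h
  · exact Nat.zero_le _
  · have := min_le_right n (4 * N + 4)
    omega

end rounding

theorem round {κ : Type*} [Fintype κ] {d : ℕ} (u : κ → Fin d → ℝ)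
    (hu : ∀ l, ∑ i, u l i ^ 2 ≤ 1) (x : κ → ℝ) (hx : ∀ l, |x l| ≤ 1) (z y : ℕ) (c : Fin d → ℝ) :
    ∃ ε : κ → ℝ, (∀ l, ε l = 1 ∨ ε l = -1) ∧ (∀ l, |x l| = 1 → ε l = x l) ∧
      (∑ i : Fin d, if z ≤ (i : ℕ) ∧ (i : ℕ) < y then (c i + ∑ l, (ε l - x l) * u l i) ^ 2 else 0) ≤
        (∑ i : Fin d, if z ≤ (i : ℕ) ∧ (i : ℕ) < y then c i ^ 2 + C0 else 0) ∧
      ∀ k : ℕ, (∑ i : Fin d, if z ≤ (i : ℕ) ∧ (i : ℕ) < k then
        (∑ l, (ε l - x l) * u l i) ^ 2 - C0 else 0) ≤ 0 := by
  classical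
  obtain ⟨ε, h1, h2, h3, h4⟩ := round_aux u hu z y x hx c
  refine ⟨ε, h1, h2, ?_, ?_⟩
  · rw [← Finset.sum_filter, ← Finset.sum_filter]
    change ∑ i ∈ win d z y, _ ≤ ∑ i ∈ win d z y, _
    rw [Finset.sum_add_distrib, Finset.sum_const, nsmul_eq_mul]
    refine h3.trans ?_
    have h5 : (mu (Finset.univ.filter fun l => |x l| < 1).card (win d z y).card : ℝ) ≤
        8 * (win d z y).card := by exact_mod_cast mu_le _ _
    have h6 : (0 : ℝ) ≤ (win d z y).card := Nat.cast_nonneg _
    unfold C0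
    linarith
  · intro k
    rw [← Finset.sum_filter]
    change ∑ i ∈ win d z k, _ ≤ _
    rw [Finset.sum_sub_distrib, Finset.sum_const, nsmul_eq_mul]
    have h5 : (mu (Finset.univ.filter fun l => |x l| < 1).card (win d z k).card : ℝ) ≤
        8 * (win d z k).card := by exact_mod_cast mu_le _ _
    have h6 : (0 : ℝ) ≤ (win d z k).card := Nat.cast_nonneg _
    have h7 := h4 k
    unfold C0
    linarith

end P262
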