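import Vale.Agent.P262.Core2

/-!
# P262: one splitting step
-/

namespace P262

variable {d : ℕ} {ι : Type} [Fintype ι] [DecidableEq ι]

theorem Inv.norm_p {D : Data d ι} {j : ℕ} {M : List ι} {W : Finset ι} {p q : Fin d → ℝ}
    (h : Inv D j M W p q) : ∑ i, p i ^ 2 ≤ D.P.R ^ 2 := by
  have h1 := h.potp 0 (Multiset.zero_le _) d
  have h2 : varp D j p 0 = p := by
    funext i
    simp [varp, msum]
  rw [h2] at h1
  exact norm_of_Psi D j p h1

theorem Inv.norm_q {D : Data d ι} {j : ℕ} {M : List ι} {W : Finset ι} {p q : Fin d → ℝ}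
    (h : Inv D j M W p q) : ∑ i, q i ^ 2 ≤ D.P.R ^ 2 := by
  have h1 := h.potq 0 (Multiset.zero_le _) d
  have h2 : varq D j q 0 = q := by
    funext i
    simp [varq, msum]
  rw [h2] at h1
  exact norm_of_Psi D j q h1

omit [Fintype ι] [DecidableEq ι] in
theorem msum_add (v : ι → Fin d → ℝ) (S T : Multiset ι) (i : Fin d) :
    msum v (S + T) i = msum v S i + msum v T i := by
  unfold msum
  rw [Multiset.map_add, Multiset.sum_add]

omit [Fintype ι] in
theorem msum_sub (v : ι → Fin d → ℝ) {S T : Multiset ι} (h : S ≤ T) (i : Fin d) :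
    msum v (T - S) i = msum v T i - msum v S i := by
  have h1 := msum_add v (T - S) S i
  rw [tsub_add_cancel_of_le h] at h1
  linarith

omit [Fintype ι] [DecidableEq ι] in
/-- bound for the sum over a submultiset -/
theorem abs_msum_le (v : ι → Fin d → ℝ) (S : Multiset ι) (i : Fin d) (B : ℝ)
    (h : ∀ a ∈ S, |v a i| ≤ B) : |msum v S i| ≤ Multiset.card S * B := by
  induction S using Multiset.induction_on with
  | empty => simp [msum]
  | cons a S ih =>
    have h1 := ih fun b hb => h b (Multiset.mem_cons_of_mem hb)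
    have h2 := h a (Multiset.mem_cons_self a S)
    unfold msum at h1 ⊢
    rw [Multiset.map_cons, Multiset.sum_cons, Multiset.card_cons]
    push_cast
    calc |v a i + (S.map fun a => v a i).sum| ≤ |v a i| + |(S.map fun a => v a i).sum| :=
          abs_add_le _ _
      _ ≤ (Multiset.card S + 1) * B := by linarith

omit [Fintype ι] [DecidableEq ι] in
theorem abs_msum_le_sum (v : ι → Fin d → ℝ) (S : Multiset ι) (i : Fin d) :
    |msum v S i| ≤ (S.map fun a => |v a i|).sum := by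
  induction S using Multiset.induction_on with
  | empty => simp [msum]
  | cons a S ih =>
    unfold msum at ih ⊢
    rw [Multiset.map_cons, Multiset.sum_cons, Multiset.map_cons, Multiset.sum_cons]
    exact (abs_add_le _ _).trans (by linarith)

/-- at the entering time the marks have total size at most two -/
theorem marks_sum (D : Data d ι) (M : List ι) (i : Fin d) (hlen : M.length ≤ D.P.n + 1)
    (hm : ∀ (k : ℕ) (hk : k < M.length), 1 ≤ k → |D.v M[k] i| * (D.P.n + 1) ≤ 1)
    (S : Multiset ι) (hS : S ≤ M) : |msum D.v S i| ≤ 2 := by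
  have hn : (0 : ℝ) < D.P.n + 1 := by positivity
  refine (abs_msum_le_sum D.v S i).trans ?_
  have h1 : (S.map fun a => |D.v a i|).sum ≤ ((M : Multiset ι).map fun a => |D.v a i|).sum := by
    obtain ⟨T, hT⟩ := Multiset.le_iff_exists_add.1 hS
    rw [hT, Multiset.map_add, Multiset.sum_add]
    have : 0 ≤ (T.map fun a => |D.v a i|).sum := by
      apply Multiset.sum_nonneg
      intro x hx
      obtain ⟨a, _, rfl⟩ := Multiset.mem_map.1 hx
      exact abs_nonneg _
    linarith
  refine h1.trans ?_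
  cases M with
  | nil => simp
  | cons x l =>
    rw [← Multiset.cons_coe, Multiset.map_cons, Multiset.sum_cons]
    have h2 := coord_le_one D x i
    have h3 : ((l : Multiset ι).map fun a => |D.v a i|).sum ≤ l.length * (1 / (D.P.n + 1)) := by
      have h4 : ∀ a ∈ l, |D.v a i| ≤ 1 / ((D.P.n : ℝ) + 1) := by
        intro a ha
        obtain ⟨k, hk, rfl⟩ := List.getElem_of_mem ha
        have := hm (k + 1) (by simp only [List.length_cons]; omega) (by omega)
        rw [le_div_iff₀ hn]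
        simpa using this
      have h5 : ∀ l' : List ι, (∀ a ∈ l', |D.v a i| ≤ 1 / ((D.P.n : ℝ) + 1)) →
          ((l' : Multiset ι).map fun a => |D.v a i|).sum ≤ l'.length * (1 / ((D.P.n : ℝ) + 1)) := by
        intro l'
        induction l' with
        | nil => intro _; simp
        | cons b l' ih =>
          intro hb
          rw [← Multiset.cons_coe, Multiset.map_cons, Multiset.sum_cons, List.length_cons]
          have e1 := hb b (List.mem_cons_self ..)
          have e2 := ih fun a ha => hb a (List.mem_cons_of_mem _ ha)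
          push_cast
          linarith
      exact h5 l h4
    have h6 : (l.length : ℝ) ≤ D.P.n := by
      simp only [List.length_cons] at hlen
      exact_mod_cast (by omega : l.length ≤ D.P.n)
    have h7 : (l.length : ℝ) * (1 / (D.P.n + 1)) ≤ 1 := by
      rw [mul_one_div, div_le_one hn]
      linarith
    linarith

/-- the geometric smallness -/
theorem small_aux (P : Par d) (t : ℕ) (ht : P.K ≤ t) (B : ℝ)
    (hB : B ≤ (4 * P.R + 2 * P.L * P.f + 5 * P.L * P.n) * (3 / 4) ^ t) :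
    B * (2 * P.R + 1) ≤ 1 / 4 * (3 / 4 : ℝ) ^ (t - P.K) := by
  have h6 := P.h6
  have hR := P.hR
  obtain ⟨s, rfl⟩ := Nat.exists_eq_add_of_le ht
  rw [Nat.add_sub_cancel_left]
  have h1 : (0 : ℝ) ≤ (3 / 4 : ℝ) ^ s := by positivity
  calc B * (2 * P.R + 1) ≤ ((4 * P.R + 2 * P.L * P.f + 5 * P.L * P.n) * (3 / 4) ^ (P.K + s)) *
        (2 * P.R + 1) := mul_le_mul_of_nonneg_right hB (by linarith)
    _ = ((4 * P.R + 2 * P.L * P.f + 5 * P.L * P.n) * (2 * P.R + 1) * (3 / 4) ^ P.K) *
        (3 / 4) ^ s := by rw [pow_add]; ring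
    _ ≤ 1 / 4 * (3 / 4 : ℝ) ^ s := mul_le_mul_of_nonneg_right h6 h1

section

variable {D : Data d ι} {j : ℕ} {M : List ι} {W : Finset ι} {p q : Fin d → ℝ}
  {N : Finset ι} {M₁ M₂ : List ι} {W₁ W₂ : Finset ι} {c e : Fin d → ℝ}

/-- contribution of the new marks -/
theorem new_small (h : Inv D j M W p q) (hN : N ⊆ W) (hNc : N.card ≤ D.P.n)
    (T : Multiset ι) (hT : T ≤ N.val) (i : Fin d) (hi : D.J i + D.P.K ≤ j) :
    |msum D.v T i| ≤ 8 / 3 * D.P.L * D.P.n * (3 / 4) ^ (j - D.J i) := by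
  have hK := K_pos D.P
  obtain ⟨hL1, -, -, -⟩ := par_facts D.P
  have h1 : ∀ a ∈ T, |D.v a i| ≤ 2 * D.P.L * (3 / 4) ^ (j - 1 - D.J i) := by
    intro a ha
    exact h.small a (hN (Multiset.mem_of_le hT ha)) i (by omega)
  refine (abs_msum_le D.v T i _ h1).trans ?_
  have h2 : (Multiset.card T : ℝ) ≤ D.P.n := by
    exact_mod_cast (Multiset.card_le_card hT).trans hNc
  have h3 : (3 / 4 : ℝ) ^ (j - D.J i) = 3 / 4 * (3 / 4) ^ (j - 1 - D.J i) := by
    rw [← pow_succ']
    congr 1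
    omega
  rw [h3]
  have h4 : (0 : ℝ) ≤ 2 * D.P.L * (3 / 4) ^ (j - 1 - D.J i) := by positivity
  calc (Multiset.card T : ℝ) * (2 * D.P.L * (3 / 4) ^ (j - 1 - D.J i)) ≤
        D.P.n * (2 * D.P.L * (3 / 4) ^ (j - 1 - D.J i)) := mul_le_mul_of_nonneg_right h2 h4
    _ = _ := by ring

theorem sqrt_En_le (h : Inv D j M W p q) (i : Fin d) (hi : D.J i ≤ j) :
    Real.sqrt (En D W i) ≤ 2 * D.P.L * (3 / 4) ^ (j - D.J i) := by
  obtain ⟨hL1, -, -, -⟩ := par_facts D.P
  apply Real.sqrt_le_iff.2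
  refine ⟨by positivity, ?_⟩
  refine (h.energy i hi).trans (le_of_eq ?_)
  rw [mul_pow, mul_pow, ← pow_mul, mul_comm (j - D.J i) 2, pow_mul]
  norm_num

/-- potential of variants of the middle point -/
theorem pot_mid (h : Inv D j M W p q) (hs : Split D j M W p q N M₁ M₂ W₁ W₂ c e)
    (X : Fin d → ℝ) (T : Multiset ι) (hT : T ≤ (M : Multiset ι) + N.val)
    (hpoor : ∀ i, D.J i + D.P.K ≤ j → X i = p i + msum D.v T i + ∑ a ∈ W₁, D.v a i)
    (hint : ∀ i, ¬ D.J i + D.P.K ≤ j → D.J i ≤ j → |X i - (c i + e i)| ≤ 2 ∧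
      (¬ D.J i + D.P.K ≤ j + 1 → X i = c i + e i))
    (hrich : ∀ i, ¬ D.J i ≤ j → X i = c i + e i) (k : ℕ) :
    Psi D (j + 1) k X ≤ beta D (j + 1) := by
  obtain ⟨hL1, -, -, -⟩ := par_facts D.P
  obtain ⟨z, hz⟩ := exists_thr (fun i => D.J i + D.P.K)
    (fun a b hab => Nat.add_le_add_right (D.hJ hab) _) j
  obtain ⟨y, hy⟩ := exists_thr D.J D.hJ j
  set T₁ := T ∩ (M : Multiset ι) with hT₁
  set T₂ := T - (M : Multiset ι) with hT₂
  have hT12 : T₂ + T₁ = T := Multiset.sub_add_inter T M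
  have hT₁M : T₁ ≤ (M : Multiset ι) := Multiset.inter_le_right
  have hT₂N : T₂ ≤ N.val := by
    rw [hT₂]
    exact tsub_le_iff_left.2 hT
  refine psi_mid D j k z y hz hy (varp D j p T₁) (varq D j q ((M : Multiset ι) - T₁)) X c e
    (h.potp T₁ hT₁M 0) (h.potq _ (Multiset.sub_le_self _ _) 0) ?_ ?_ ?_
    (hs.rnd1 z y hz hy) (hs.rnd2 z hz)
  · intro i hi
    have hij : D.J i ≤ j := by omega
    refine small_aux D.P (j - D.J i) (by omega) _ ?_ |>.trans (le_of_eq ?_)
    · have e1 : X i - (varp D j p T₁ i + varq D j q ((M : Multiset ι) - T₁) i) / 2 =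
          (∑ a ∈ W₁, D.v a i - (∑ a ∈ W \ N, D.v a i) / 2) + msum D.v T₂ i -
            msum D.v N.val i / 2 := by
        have a1 := h.hq i
        have a2 : ∑ a ∈ W, D.v a i = ∑ a ∈ W \ N, D.v a i + ∑ a ∈ N, D.v a i :=
          (Finset.sum_sdiff hs.hN).symm
        have a3 : msum D.v N.val i = ∑ a ∈ N, D.v a i := rfl
        have a4 : msum D.v T i = msum D.v T₂ i + msum D.v T₁ i := by rw [← hT12, msum_add]
        rw [hpoor i hi, a4]
        unfold varp varq
        rw [if_pos hi, if_pos hi, msum_sub D.v hT₁M, a1, a2, a3]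
        ring
      rw [e1]
      have b1 := hs.half i hij
      have b2 := new_small h hs.hN hs.hNc T₂ hT₂N i hi
      have b3 := new_small h hs.hN hs.hNc N.val le_rfl i hi
      have b4 := sqrt_En_le h i hij
      have b5 : (2 * D.P.R / D.P.L + D.P.f) * Real.sqrt (En D W i) ≤
          (4 * D.P.R + 2 * D.P.L * D.P.f) * (3 / 4) ^ (j - D.J i) := by
        have c0 : (0 : ℝ) ≤ 2 * D.P.R / D.P.L + D.P.f := by
          have := D.P.hR
          positivity
        calc (2 * D.P.R / D.P.L + D.P.f) * Real.sqrt (En D W i) ≤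
              (2 * D.P.R / D.P.L + D.P.f) * (2 * D.P.L * (3 / 4) ^ (j - D.J i)) :=
              mul_le_mul_of_nonneg_left b4 c0
          _ = _ := by
              have : D.P.L ≠ 0 := by linarith
              field_simp
              ring
      have b6 : (0 : ℝ) ≤ D.P.L * D.P.n * (3 / 4) ^ (j - D.J i) := by positivity
      have t1 := abs_le.1 b1
      have t2 := abs_le.1 b2
      have t3 := abs_le.1 b3
      rw [abs_le]
      constructor <;> nlinarith [t1.1, t1.2, t2.1, t2.2, t3.1, t3.2]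
    · congr 2
  · intro i hi hij
    obtain ⟨g1, g2⟩ := hint i hi hij
    refine ⟨g1, g2, ?_⟩
    unfold varp varq
    rw [if_neg hi, if_neg hi, add_zero, sub_zero]
    exact hs.cross i hij
  · intro i hi
    rw [hrich i hi, hs.rich i hi, zero_add]

/-- potential of variants of an old end point -/
theorem pot_old (h : Inv D j M W p q) (hN : N ⊆ W) (hNc : N.card ≤ D.P.n)
    (a X : Fin d → ℝ) (ha : ∀ k, Psi D j k a ≤ beta D j) (T : Multiset ι) (hT : T ≤ N.val)
    (hpoor : ∀ i, D.J i + D.P.K ≤ j → |X i - a i| ≤ |msum D.v T i|)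
    (hint : ∀ i, ¬ D.J i + D.P.K ≤ j → D.J i ≤ j → |X i - a i| ≤ 2 ∧
      (¬ D.J i + D.P.K ≤ j + 1 → X i = a i))
    (hrich : ∀ i, ¬ D.J i ≤ j → X i = a i) (k : ℕ) :
    Psi D (j + 1) k X ≤ beta D (j + 1) := by
  obtain ⟨hL1, -, -, -⟩ := par_facts D.P
  refine psi_old D j k a X ha ?_ hint hrich
  intro i hi
  refine small_aux D.P (j - D.J i) (by omega) _ ?_ |>.trans (le_of_eq ?_)
  · have b2 := new_small h hN hNc T hT i hi
    have b6 : (0 : ℝ) ≤ D.P.L * D.P.n * (3 / 4) ^ (j - D.J i) := by positivity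
    have b7 : (0 : ℝ) ≤ (4 * D.P.R + 2 * D.P.L * D.P.f) * (3 / 4) ^ (j - D.J i) := by
      have := D.P.hR
      positivity
    have b8 := (hpoor i hi).trans b2
    nlinarith
  · congr 2

theorem lam_nonneg (D : Data d ι) (i : Fin d) : 0 ≤ D.lam i := by
  have := D.hlam i i
  rw [if_pos rfl] at this
  rw [← this]
  exact Finset.sum_nonneg fun a _ => mul_self_nonneg _

theorem child_close (h : Inv D j M W p q) (Wc : Finset ι)
    (hc : ∀ i k, |∑ a ∈ Wc, D.v a i * D.v a k - (∑ a ∈ W, D.v a i * D.v a k) / 2| ≤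
      ((D.P.n : ℝ) / 2 + D.P.f) + 2 * D.P.R / D.P.L * Real.sqrt (En D W i)) (i k : Fin d) :
    |(∑ a ∈ Wc, D.v a i * D.v a k) - if i = k then D.lam i / 2 ^ (j + 1) else 0| ≤
    (2 * D.P.n + 4 * D.P.f) +
      8 * (2 * D.P.R / D.P.L) * Real.sqrt (D.lam i / 2 ^ (j + 1)) := by
  obtain ⟨hL1, -, hr0, hr1⟩ := par_facts D.P
  have hf1 : (1 : ℝ) ≤ D.P.f := by exact_mod_cast f_pos D.P
  have hn0 : (0 : ℝ) ≤ D.P.n := Nat.cast_nonneg _
  set r := 2 * D.P.R / D.P.L with hr
  set g := Real.sqrt (D.lam i / 2 ^ j) with hg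
  set g' := Real.sqrt (D.lam i / 2 ^ (j + 1)) with hg'
  have hl := lam_nonneg D i
  have hg0 : 0 ≤ g := Real.sqrt_nonneg _
  have hg'0 : 0 ≤ g' := Real.sqrt_nonneg _
  have hg2 : g ^ 2 = D.lam i / 2 ^ j := Real.sq_sqrt (by positivity)
  have hg'2 : g' ^ 2 = D.lam i / 2 ^ (j + 1) := Real.sq_sqrt (by positivity)
  have hgg : g' ^ 2 = g ^ 2 / 2 := by
    rw [hg2, hg'2, pow_succ]
    field_simp
  have h5 : 5 * g ≤ 8 * g' := by
    have : (5 * g) ^ 2 ≤ (8 * g') ^ 2 := by nlinarith [sq_nonneg g]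
    exact le_of_sq_le_sq this (by positivity)
  have h1 := hc i k
  have h2 := h.close i k
  have h3 : En D W i ≤ (g + 4 * r + Real.sqrt (2 * D.P.n + 4 * D.P.f)) ^ 2 := by
    have h4 : (∑ a ∈ W, D.v a i * D.v a i) - g ^ 2 ≤ (2 * D.P.n + 4 * D.P.f) + 8 * r * g := by
      have h4' := (abs_le.1 (h.close i i)).2
      rw [if_pos rfl] at h4'
      rw [hg2]
      exact h4'
    have h6 : En D W i = ∑ a ∈ W, D.v a i * D.v a i := by
      unfold En
      exact Finset.sum_congr rfl fun a _ => sq _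
    have h7 : Real.sqrt (2 * D.P.n + 4 * D.P.f) ^ 2 = 2 * D.P.n + 4 * D.P.f :=
      Real.sq_sqrt (by positivity)
    have h8 := Real.sqrt_nonneg (2 * (D.P.n : ℝ) + 4 * D.P.f)
    rw [h6]
    nlinarith [mul_nonneg hg0 h8, mul_nonneg hr0 h8, mul_nonneg hg0 hr0]
  have h4 : Real.sqrt (En D W i) ≤ g + 4 * r + Real.sqrt (2 * D.P.n + 4 * D.P.f) :=
    Real.sqrt_le_iff.2 ⟨by positivity, h3⟩
  have h6 : Real.sqrt (2 * D.P.n + 4 * D.P.f) ≤ 2 * D.P.n + 4 * D.P.f := by
    apply Real.sqrt_le_iff.2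
    constructor
    · positivity
    · nlinarith
  have h7 : r * Real.sqrt (En D W i) ≤ r * g + (1 / 32) * (4 * (1 / 32) +
      (2 * D.P.n + 4 * D.P.f)) := by
    have e1 : r * Real.sqrt (En D W i) ≤ r * (g + 4 * r + Real.sqrt (2 * D.P.n + 4 * D.P.f)) :=
      mul_le_mul_of_nonneg_left h4 hr0
    have e2 : r * (4 * r + Real.sqrt (2 * D.P.n + 4 * D.P.f)) ≤
        (1 / 32) * (4 * (1 / 32) + (2 * D.P.n + 4 * D.P.f)) := by
      apply mul_le_mul hr1 _ (by positivity) (by norm_num)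
      linarith
    nlinarith
  have h8 : (if i = k then D.lam i / 2 ^ (j + 1) else 0) =
      (if i = k then D.lam i / 2 ^ j else 0) / 2 := by
    split_ifs
    · rw [pow_succ]; field_simp
    · simp
  rw [h8]
  have h9 : r * (5 * g) ≤ r * (8 * g') := mul_le_mul_of_nonneg_left h5 hr0
  rw [abs_le] at h1 h2 ⊢
  constructor <;> nlinarith [h1.1, h1.2, h2.1, h2.2]

theorem child_energy (h : Inv D j M W p q) (Wc : Finset ι)
    (hc : ∀ i k, |∑ a ∈ Wc, D.v a i * D.v a k - (∑ a ∈ W, D.v a i * D.v a k) / 2| ≤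
      ((D.P.n : ℝ) / 2 + D.P.f) + 2 * D.P.R / D.P.L * Real.sqrt (En D W i))
    (hen : ∀ i, D.J i ≤ j → En D Wc i ≤ 9 / 16 * En D W i) (i : Fin d) (hi : D.J i ≤ j + 1) :
    ∑ a ∈ Wc, D.v a i ^ 2 ≤ 4 * D.P.L ^ 2 * (9 / 16) ^ (j + 1 - D.J i) := by
  obtain ⟨hL1, -, hr0, hr1⟩ := par_facts D.P
  by_cases h1 : D.J i ≤ j
  · have h2 := hen i h1
    have h3 := h.energy i h1
    have h4 : j + 1 - D.J i = (j - D.J i) + 1 := by omega
    rw [h4, pow_succ (9 / 16 : ℝ)]
    change En D Wc i ≤ _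
    change En D W i ≤ _ at h3
    nlinarith
  · have h2 : D.J i = j + 1 := by omega
    have h3 := (abs_le.1 (child_close h Wc hc i i)).2
    rw [if_pos rfl] at h3
    have h4 := D.hJ1 i
    rw [h2] at h4
    have h5 : Real.sqrt (D.lam i / 2 ^ (j + 1)) ≤ D.P.L :=
      Real.sqrt_le_iff.2 ⟨by linarith, h4.le⟩
    have h6 : j + 1 - D.J i = 0 := by omega
    rw [h6, pow_zero, mul_one]
    have h7 : ∑ a ∈ Wc, D.v a i ^ 2 = ∑ a ∈ Wc, D.v a i * D.v a i :=
      Finset.sum_congr rfl fun a _ => sq _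
    rw [h7]
    have h8 : 2 * (D.P.n : ℝ) + 4 * D.P.f ≤ D.P.L ^ 2 / 2 := by
      have e1 := D.P.h4
      have e2 : (1 : ℝ) ≤ d := by exact_mod_cast D.P.hd
      have e3 : (0 : ℝ) ≤ (2 * D.P.n + 4 * D.P.f + D.P.n) / D.P.L ^ 2 := by positivity
      have e4 : 0 ≤ 8 * (2 * D.P.R / D.P.L) / D.P.L := by
        have := hr0
        positivity
      have e5 : (2 * (D.P.n : ℝ) + 4 * D.P.f + D.P.n) / D.P.L ^ 2 ≤ 1 / 2 := by nlinarith
      rw [div_le_iff₀ (by positivity)] at e5
      have e6 : (0 : ℝ) ≤ D.P.n := Nat.cast_nonneg _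
      linarith
    have h9 : 8 * (2 * D.P.R / D.P.L) * Real.sqrt (D.lam i / 2 ^ (j + 1)) ≤
        8 * (1 / 32) * D.P.L := by
      apply mul_le_mul _ h5 (Real.sqrt_nonneg _) (by norm_num)
      linarith
    nlinarith

theorem child_small (h : Inv D j M W p q) {a : ι}
    (hna : ∀ i, D.J i ≤ j → D.v a i ^ 2 ≤ En D W i) (i : Fin d) (hi : D.J i + 1 ≤ j + 1) :
    |D.v a i| ≤ 2 * D.P.L * (3 / 4) ^ (j + 1 - 1 - D.J i) := by
  have h1 := hna i (by omega)
  have h2 := sqrt_En_le h i (by omega)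
  exact (Real.abs_le_sqrt h1).trans h2

theorem child_marks (h : Inv D j M W p q) (hN : N ⊆ W) (Mc : List ι)
    (hlen : Mc.length ≤ D.P.n + 1)
    (hget : ∀ (k : ℕ) (hk : k < Mc.length),
      (∃ (k' : ℕ) (hk' : k' < M.length), 2 * k ≤ k' ∧ Mc[k] = M[k']) ∨ Mc[k] ∈ N)
    (i : Fin d) (hi : D.J i + D.P.K₁ ≤ j + 1) (k : ℕ) (hk : k < Mc.length)
    (hk2 : (D.P.n + 1) / 2 ^ (j + 1 - D.J i - D.P.K₁) + 1 ≤ k) :
    |D.v Mc[k] i| * (D.P.n + 1) ≤ 1 := by
  obtain ⟨hL1, -, -, -⟩ := par_facts D.P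
  by_cases h1 : D.J i + D.P.K₁ ≤ j
  · rcases hget k hk with ⟨k', hk', h2, h3⟩ | h2
    · rw [h3]
      refine h.marks i h1 k' hk' ?_
      have h4 : j + 1 - D.J i - D.P.K₁ = (j - D.J i - D.P.K₁) + 1 := by omega
      rw [h4, pow_succ, ← Nat.div_div_eq_div_mul] at hk2
      omega
    · have hK1 := D.P.hK1
      have h3 := h.small _ (hN h2) i (by omega)
      have h4 : (3 / 4 : ℝ) ^ (j - 1 - D.J i) ≤ (3 / 4) ^ (D.P.K₁ - 1) :=
        pow_le_pow_of_le_one (by norm_num) (by norm_num) (by omega)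
      have h5 : (0 : ℝ) ≤ D.P.n + 1 := by positivity
      calc |D.v Mc[k] i| * (D.P.n + 1) ≤ (2 * D.P.L * (3 / 4) ^ (D.P.K₁ - 1)) * (D.P.n + 1) := by
            refine mul_le_mul_of_nonneg_right (h3.trans ?_) h5
            exact mul_le_mul_of_nonneg_left h4 (by linarith)
        _ ≤ 1 := D.P.h7
  · have h2 : j + 1 - D.J i - D.P.K₁ = 0 := by omega
    rw [h2, pow_zero, Nat.div_one] at hk2
    omega

end

/-- One splitting step. -/
theorem step (D : Data d ι) {j : ℕ} {M : List ι} {W : Finset ι} {p q : Fin d → ℝ}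
    (h : Inv D j M W p q) : ∃ (M₁ M₂ : List ι) (W₁ W₂ : Finset ι) (mid : Fin d → ℝ),
      (M₁ : Multiset ι) + W₁.val + ((M₂ : Multiset ι) + W₂.val) = (M : Multiset ι) + W.val ∧
      Inv D (j + 1) M₁ W₁ p mid ∧ Inv D (j + 1) M₂ W₂ mid q := by
  classical
  obtain ⟨N, M₁, M₂, W₁, W₂, c, e, hs⟩ := exists_split D h.hq h.close h.norm_p h.norm_q
  have hK := K_pos D.P
  have hlen0 := h.len
  have hNc := hs.hNc
  have hl1 : M₁.length ≤ D.P.n + 1 := by have := hs.len1; omega
  have hl2 : M₂.length ≤ D.P.n + 1 := by have := hs.len2; omega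
  have hW : ∀ g : ι → ℝ, ∑ a ∈ W, g a = ∑ a ∈ W₁, g a + ∑ a ∈ W₂, g a + ∑ a ∈ N, g a := by
    intro g
    rw [← Finset.sum_union hs.hWd, hs.hWu, Finset.sum_sdiff hs.hN]
  have hmid : ∀ i, q i = (c i + e i) + msum D.v M₂ i + ∑ a ∈ W₂, D.v a i := by
    intro i
    have h1 := congrArg (fun S => msum D.v S i) hs.hM
    simp only [msum_add] at h1
    have h2 : msum D.v N.val i = ∑ a ∈ N, D.v a i := rfl
    rw [h.hq i, ← hs.mid i, hW]
    linarith
  -- marks at the entering time
  have hms : ∀ (Mc : List ι) (hlen : Mc.length ≤ D.P.n + 1)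
      (hget : ∀ (k : ℕ) (hk : k < Mc.length),
        (∃ (k' : ℕ) (hk' : k' < M.length), 2 * k ≤ k' ∧ Mc[k] = M[k']) ∨ Mc[k] ∈ N)
      (i : Fin d) (hi : D.J i + D.P.K = j + 1) (S : Multiset ι) (hS : S ≤ Mc),
      |msum D.v S i| ≤ 2 := by
    intro Mc hlen hget i hi S hS
    refine marks_sum D Mc i hlen (fun k hk hk1 => ?_) S hS
    refine child_marks h hs.hN Mc hlen hget i (by have := D.P.hKK; omega) k hk ?_
    have h8 := D.P.h8
    have h9 : j + 1 - D.J i - D.P.K₁ = D.P.K - D.P.K₁ := by omega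
    rw [h9, Nat.div_eq_of_lt h8]
    omega
  -- potentials of variants of `mid`
  have hpm : ∀ (Mc : List ι) (hlen : Mc.length ≤ D.P.n + 1)
      (hget : ∀ (k : ℕ) (hk : k < Mc.length),
        (∃ (k' : ℕ) (hk' : k' < M.length), 2 * k ≤ k' ∧ Mc[k] = M[k']) ∨ Mc[k] ∈ N)
      (S : Multiset ι) (hS : S ≤ Mc) (T : Multiset ι) (hT : T ≤ (M : Multiset ι) + N.val)
      (σ : ℝ) (hσ : |σ| = 1) (hTS : ∀ i, msum D.v T i = msum D.v M₁ i + σ * msum D.v S i)
      (k : ℕ), Psi D (j + 1) k (fun i => (c i + e i) +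
        if D.J i + D.P.K ≤ j + 1 then σ * msum D.v S i else 0) ≤ beta D (j + 1) := by
    intro Mc hlen hget S hS T hT σ hσ hTS k
    refine pot_mid h hs _ T hT ?_ ?_ ?_ k
    · intro i hi
      rw [if_pos (by omega), ← hs.mid i, hTS]
      ring
    · intro i hi hij
      by_cases h1 : D.J i + D.P.K ≤ j + 1
      · rw [if_pos h1]
        refine ⟨?_, fun h2 => absurd h1 h2⟩
        rw [add_sub_cancel_left, abs_mul, hσ, one_mul]
        exact hms Mc hlen hget i (by omega) S hS
      · rw [if_neg h1]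
        refine ⟨by simp, fun _ => by simp⟩
    · intro i hi
      rw [if_neg (by omega), add_zero]
  -- potentials of variants of the old end points
  have hpo : ∀ (Mc : List ι) (hlen : Mc.length ≤ D.P.n + 1)
      (hget : ∀ (k : ℕ) (hk : k < Mc.length),
        (∃ (k' : ℕ) (hk' : k' < M.length), 2 * k ≤ k' ∧ Mc[k] = M[k']) ∨ Mc[k] ∈ N)
      (hMc : (Mc : Multiset ι) ≤ (M : Multiset ι) + N.val)
      (S : Multiset ι) (hS : S ≤ Mc) (x : Fin d → ℝ) (σ : ℝ) (hσ : |σ| = 1)
      (hx : ∀ S : Multiset ι, S ≤ M → ∀ k, Psi D j k (fun i => x i +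
        if D.J i + D.P.K ≤ j then σ * msum D.v S i else 0) ≤ beta D j)
      (k : ℕ), Psi D (j + 1) k (fun i => x i +
        if D.J i + D.P.K ≤ j + 1 then σ * msum D.v S i else 0) ≤ beta D (j + 1) := by
    intro Mc hlen hget hMc S hS x σ hσ hx k
    have hT12 : (S - (M : Multiset ι)) + (S ∩ (M : Multiset ι)) = S := Multiset.sub_add_inter S M
    refine pot_old h hs.hN hs.hNc (fun i => x i +
        if D.J i + D.P.K ≤ j then σ * msum D.v (S ∩ (M : Multiset ι)) i else 0) _
      (hx _ Multiset.inter_le_right) (S - (M : Multiset ι)) (tsub_le_iff_left.2 (hS.trans hMc))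
      ?_ ?_ ?_ k
    · intro i hi
      rw [if_pos (by omega), if_pos hi]
      have h1 : msum D.v S i = msum D.v (S - (M : Multiset ι)) i +
          msum D.v (S ∩ (M : Multiset ι)) i := by rw [← msum_add, hT12]
      have h2 : x i + σ * msum D.v S i - (x i + σ * msum D.v (S ∩ (M : Multiset ι)) i) =
          σ * msum D.v (S - (M : Multiset ι)) i := by rw [h1]; ring
      rw [h2, abs_mul, hσ, one_mul]
    · intro i hi hij
      rw [if_neg hi]
      by_cases h1 : D.J i + D.P.K ≤ j + 1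
      · rw [if_pos h1]
        refine ⟨?_, fun h2 => absurd h1 h2⟩
        rw [add_zero, add_sub_cancel_left, abs_mul, hσ, one_mul]
        exact hms Mc hlen hget i (by omega) S hS
      · rw [if_neg h1]
        refine ⟨by simp, fun _ => by simp⟩
    · intro i hi
      rw [if_neg (by omega), if_neg (by omega)]
  have hM1 : (M₁ : Multiset ι) ≤ (M : Multiset ι) + N.val := by
    rw [← hs.hM]; exact Multiset.le_add_right _ _
  have hM2 : (M₂ : Multiset ι) ≤ (M : Multiset ι) + N.val := by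
    rw [← hs.hM]; exact Multiset.le_add_left _ _
  have hvp : ∀ (jj : ℕ) (x : Fin d → ℝ) (S : Multiset ι), varp D jj x S = fun i => x i +
      if D.J i + D.P.K ≤ jj then 1 * msum D.v S i else 0 := by
    intro jj x S
    funext i
    unfold varp
    rw [one_mul]
  have hvq : ∀ (jj : ℕ) (x : Fin d → ℝ) (S : Multiset ι), varq D jj x S = fun i => x i +
      if D.J i + D.P.K ≤ jj then (-1) * msum D.v S i else 0 := by
    intro jj x S
    funext i
    unfold varq
    split_ifs <;> ring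
  refine ⟨M₁, M₂, W₁, W₂, fun i => c i + e i, ?_, ?_, ?_⟩
  · have h1 : W₁.val + W₂.val + N.val = W.val := by
      have e1 : (W₁ ∪ W₂).val = W₁.val + W₂.val := by
        rw [← Finset.disjUnion_eq_union _ _ hs.hWd]
        rfl
      have e2 : (W \ N).val + N.val = W.val := by
        rw [Finset.sdiff_val]
        exact tsub_add_cancel_of_le (Finset.val_le_iff.2 hs.hN)
      rw [← e1, hs.hWu, e2]
    have h2 := hs.hM
    calc (M₁ : Multiset ι) + W₁.val + ((M₂ : Multiset ι) + W₂.val) =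
          ((M₁ : Multiset ι) + (M₂ : Multiset ι)) + (W₁.val + W₂.val) := by
          rw [add_add_add_comm]
      _ = (M : Multiset ι) + (W₁.val + W₂.val + N.val) := by
          rw [h2]
          rw [add_assoc, add_comm N.val]
      _ = _ := by rw [h1]
  · exact
      { hq := fun i => (hs.mid i).symm
        close := child_close h W₁ hs.close1
        energy := child_energy h W₁ hs.close1 hs.en1
        small := fun a ha i hi => child_small h
          (hs.nonatom a (by rw [← hs.hWu]; exact Finset.mem_union_left _ ha)) i hi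
        len := hl1
        marks := child_marks h hs.hN M₁ hl1 hs.get1
        potp := by
          intro S hS k
          rw [hvp]
          refine hpo M₁ hl1 hs.get1 hM1 S hS p 1 (by simp) (fun S' hS' k' => ?_) k
          rw [← hvp]
          exact h.potp S' hS' k'
        potq := by
          intro S hS k
          rw [hvq]
          refine hpm M₁ hl1 hs.get1 S hS ((M₁ : Multiset ι) - S)
            ((Multiset.sub_le_self _ _).trans hM1) (-1) (by simp) (fun i => ?_) k
          rw [msum_sub D.v hS]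
          ring }
  · exact
      { hq := hmid
        close := child_close h W₂ hs.close2
        energy := child_energy h W₂ hs.close2 hs.en2
        small := fun a ha i hi => child_small h
          (hs.nonatom a (by rw [← hs.hWu]; exact Finset.mem_union_right _ ha)) i hi
        len := hl2
        marks := child_marks h hs.hN M₂ hl2 hs.get2
        potp := by
          intro S hS k
          rw [hvp]
          refine hpm M₂ hl2 hs.get2 S hS ((M₁ : Multiset ι) + S)
            (by rw [← hs.hM]; exact add_le_add_right hS _) 1 (by simp) (fun i => ?_) k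
          rw [msum_add]
          ring
        potq := by
          intro S hS k
          rw [hvq]
          refine hpo M₂ hl2 hs.get2 hM2 S hS q (-1) (by simp) (fun S' hS' k' => ?_) k
          rw [← hvq]
          exact h.potq S' hS' k' }

end P262
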