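import Vale.Agent.P262.Step

/-!
# P262: the tree and the ordering
-/

namespace P262

variable {d : ℕ} {ι : Type} [Fintype ι] [DecidableEq ι]

/-- At a late level all remaining unmarked vectors vanish and every order works. -/
theorem late (D : Data d ι) : ∃ j₀ : ℕ, ∀ (j : ℕ), j₀ ≤ j → ∀ (M : List ι) (W : Finset ι)
    (p q : Fin d → ℝ), Inv D j M W p q → (∀ i, D.J i + D.P.K ≤ j) ∧
      ∀ a ∈ W, ∀ i, D.v a i = 0 := by
  have h1 : ∀ (a : ι) (i : Fin d), ∃ t : ℕ, D.v a i ≠ 0 →
      4 * D.P.L ^ 2 * (9 / 16) ^ t < D.v a i ^ 2 := by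
    intro a i
    by_cases h0 : D.v a i = 0
    · exact ⟨0, fun h => absurd h0 h⟩
    · have hpos : 0 < D.v a i ^ 2 := by positivity
      have hL : 0 < 4 * D.P.L ^ 2 := by
        have := (par_facts D.P).1
        positivity
      obtain ⟨t, ht⟩ := exists_pow_lt_of_lt_one (div_pos hpos hL)
        (by norm_num : (9 / 16 : ℝ) < 1)
      refine ⟨t, fun _ => ?_⟩
      rw [lt_div_iff₀ hL] at ht
      linarith
  choose t ht using h1
  refine ⟨∑ i, (D.J i + D.P.K) + ∑ i, ∑ a, t a i, ?_⟩
  intro j hj M W p q h
  have h2 : ∀ i, D.J i + D.P.K ≤ ∑ i, (D.J i + D.P.K) := fun i =>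
    Finset.single_le_sum (f := fun i => D.J i + D.P.K) (fun _ _ => Nat.zero_le _)
      (Finset.mem_univ i)
  have h3 : ∀ a i, t a i ≤ ∑ i, ∑ a, t a i := by
    intro a i
    refine (Finset.single_le_sum (f := fun a => t a i) (fun _ _ => Nat.zero_le _)
      (Finset.mem_univ a)).trans ?_
    exact Finset.single_le_sum (f := fun i => ∑ a, t a i) (fun _ _ => Nat.zero_le _)
      (Finset.mem_univ i)
  refine ⟨fun i => by have := h2 i; omega, fun a ha i => ?_⟩
  by_contra h0
  have h4 := ht a i h0
  have h5 : D.J i ≤ j := by have := h2 i; omega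
  have h6 := h.energy i h5
  have h7 : D.v a i ^ 2 ≤ ∑ a ∈ W, D.v a i ^ 2 :=
    Finset.single_le_sum (f := fun a => D.v a i ^ 2) (fun _ _ => sq_nonneg _) ha
  have h8 : (9 / 16 : ℝ) ^ (j - D.J i) ≤ (9 / 16) ^ t a i := by
    apply pow_le_pow_of_le_one (by norm_num) (by norm_num)
    have := h2 i
    have := h3 a i
    omega
  have h9 : 4 * D.P.L ^ 2 * (9 / 16 : ℝ) ^ (j - D.J i) ≤ 4 * D.P.L ^ 2 * (9 / 16) ^ t a i :=
    mul_le_mul_of_nonneg_left h8 (by positivity)
  linarith

omit [Fintype ι] [DecidableEq ι] in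
theorem msum_coe (v : ι → Fin d → ℝ) (l : List ι) (i : Fin d) :
    msum v (l : Multiset ι) i = (l.map fun a => v a i).sum := by
  unfold msum
  rw [Multiset.map_coe, Multiset.sum_coe]

theorem tree_aux (D : Data d ι) (j₀ : ℕ) (h₀ : ∀ (j : ℕ), j₀ ≤ j → ∀ (M : List ι) (W : Finset ι)
    (p q : Fin d → ℝ), Inv D j M W p q → (∀ i, D.J i + D.P.K ≤ j) ∧
      ∀ a ∈ W, ∀ i, D.v a i = 0) (n : ℕ) : ∀ (j : ℕ), j₀ ≤ j + n → ∀ (M : List ι) (W : Finset ι)
    (p q : Fin d → ℝ), Inv D j M W p q → ∃ l : List ι, (l : Multiset ι) = (M : Multiset ι) + W.val ∧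
      ∀ k : ℕ, ∑ i, (p i + ((l.take k).map fun a => D.v a i).sum) ^ 2 ≤ D.P.R ^ 2 := by
  induction n with
  | zero =>
    intro j hj M W p q h
    obtain ⟨h1, h2⟩ := h₀ j (by omega) M W p q h
    refine ⟨M ++ W.toList, ?_, ?_⟩
    · rw [← Multiset.coe_add, Finset.coe_toList]
    · intro k
      rw [List.take_append]
      have h3 : ∀ i, (((List.take k M ++ List.take (k - M.length) W.toList).map
          fun a => D.v a i).sum) = msum D.v (List.take k M : Multiset ι) i := by
        intro i
        rw [List.map_append, List.sum_append, msum_coe]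
        have : ((List.take (k - M.length) W.toList).map fun a => D.v a i).sum = 0 := by
          apply List.sum_eq_zero
          intro x hx
          obtain ⟨a, ha, rfl⟩ := List.mem_map.1 hx
          exact h2 a (Finset.mem_toList.1 (List.mem_of_mem_take ha)) i
        rw [this, add_zero]
      simp_rw [h3]
      have h4 : (List.take k M : Multiset ι) ≤ (M : Multiset ι) :=
        Multiset.coe_le.2 (List.take_sublist k M).subperm
      have h5 := norm_of_Psi D j _ (h.potp _ h4 d)
      unfold varp at h5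
      simp only [h1, if_true] at h5
      exact h5
  | succ n ih =>
    intro j hj M W p q h
    obtain ⟨M₁, M₂, W₁, W₂, mid, h1, h2, h3⟩ := step D h
    obtain ⟨l₁, g1, g2⟩ := ih (j + 1) (by omega) M₁ W₁ p mid h2
    obtain ⟨l₂, g3, g4⟩ := ih (j + 1) (by omega) M₂ W₂ mid q h3
    refine ⟨l₁ ++ l₂, ?_, ?_⟩
    · rw [← Multiset.coe_add, g1, g3, h1]
    · intro k
      rw [List.take_append]
      rcases le_total k l₁.length with hk | hk
      · rw [Nat.sub_eq_zero_of_le hk, List.take_zero, List.append_nil]
        exact g2 k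
      · rw [List.take_of_length_le hk]
        have h4 : ∀ i, p i + ((l₁ ++ List.take (k - l₁.length) l₂).map fun a => D.v a i).sum =
            mid i + ((List.take (k - l₁.length) l₂).map fun a => D.v a i).sum := by
          intro i
          rw [List.map_append, List.sum_append, ← msum_coe D.v l₁, g1, msum_add, h2.hq i]
          have : msum D.v W₁.val i = ∑ a ∈ W₁, D.v a i := rfl
          rw [this]
          ring
        simp_rw [h4]
        exact g4 _

theorem tree (D : Data d ι) (j : ℕ) (M : List ι) (W : Finset ι) (p q : Fin d → ℝ)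
    (h : Inv D j M W p q) : ∃ l : List ι, (l : Multiset ι) = (M : Multiset ι) + W.val ∧
      ∀ k : ℕ, ∑ i, (p i + ((l.take k).map fun a => D.v a i).sum) ^ 2 ≤ D.P.R ^ 2 := by
  obtain ⟨j₀, h₀⟩ := late D
  exact tree_aux D j₀ h₀ j₀ j (by omega) M W p q h

/-- The ordering for the whole family. -/
theorem exists_order (D : Data d ι) (h0 : ∀ i, ∑ a, D.v a i = 0) :
    ∃ l : List ι, (l : Multiset ι) = (Finset.univ : Finset ι).val ∧
      ∀ k : ℕ, ∑ i, (((l.take k).map fun a => D.v a i).sum) ^ 2 ≤ D.P.R ^ 2 := by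
  have hC := C0_pos
  obtain ⟨hL1, -, hr0, -⟩ := par_facts D.P
  have hbeta : 0 ≤ beta D 0 := by
    unfold beta
    have h1 : ∀ i : Fin d, (0 : ℝ) ≤ 1 - (3 / 4 : ℝ) ^ (0 - D.J i - D.P.K) := by
      intro i
      have : (3 / 4 : ℝ) ^ (0 - D.J i - D.P.K) ≤ 1 := pow_le_one₀ (by norm_num) (by norm_num)
      linarith
    have h2 := Finset.sum_nonneg fun i (_ : i ∈ Finset.univ) => h1 i
    have h3 : (0 : ℝ) ≤ ∑ i, ((min (0 + 1 - D.J i) (D.P.K + 1) : ℕ) : ℝ) :=
      Finset.sum_nonneg fun i _ => Nat.cast_nonneg _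
    have h4 : 0 ≤ (2 * C0 + 5) * ∑ i, ((min (0 + 1 - D.J i) (D.P.K + 1) : ℕ) : ℝ) := by
      positivity
    linarith
  have hpsi : ∀ k, Psi D 0 k (fun _ => 0) ≤ beta D 0 := by
    intro k
    refine le_trans ?_ hbeta
    unfold Psi
    refine Finset.sum_nonpos fun i _ => ?_
    split_ifs <;> simp
    linarith
  have hroot : Inv D 0 [] Finset.univ (fun _ => 0) (fun _ => 0) :=
    { hq := by
        intro i
        simp [msum, h0 i]
      close := by
        intro i k
        rw [D.hlam i k]
        simp only [pow_zero, div_one, sub_self, abs_zero]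
        positivity
      energy := by
        intro i hi
        have h1 : D.J i = 0 := by omega
        have h2 := D.hJ1 i
        rw [h1, pow_zero, div_one] at h2
        have h3 := D.hlam i i
        rw [if_pos rfl] at h3
        have h4 : ∑ a, D.v a i ^ 2 = D.lam i := by
          rw [← h3]
          exact Finset.sum_congr rfl fun a _ => sq _
        rw [h4, h1]
        simp only [Nat.sub_self, pow_zero, mul_one]
        nlinarith
      small := by
        intro a _ i hi
        omega
      len := by simp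
      marks := by
        intro i hi k hk
        simp at hk
      potp := by
        intro S hS k
        have h1 : S = 0 := by
          rw [Multiset.coe_nil] at hS
          exact Multiset.le_zero.1 hS
        have h2 : varp D 0 (fun _ => 0) S = fun _ => 0 := by
          funext i
          simp [varp, h1, msum]
        rw [h2]
        exact hpsi k
      potq := by
        intro S hS k
        have h1 : S = 0 := by
          rw [Multiset.coe_nil] at hS
          exact Multiset.le_zero.1 hS
        have h2 : varq D 0 (fun _ => 0) S = fun _ => 0 := by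
          funext i
          simp [varq, h1, msum]
        rw [h2]
        exact hpsi k }
  obtain ⟨l, h1, h2⟩ := tree D 0 [] Finset.univ _ _ hroot
  refine ⟨l, by simpa using h1, fun k => ?_⟩
  simpa using h2 k

end P262
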